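import Vale.Agent.P179.H580.Tate
import Vale.Agent.P240.H195.BNRad

/-!
P183: representations of groups with a split BN-pair in the defining characteristic. Basic
notions: irreducibility, fixed spaces, line stabilisers, common eigenvectors of `B`.
-/

namespace Vale.Agent.P183CR

open Subgroup Vale.Agent.P240.H195

variable {k L V : Type*} [Field k] [Group L] [AddCommGroup V] [Module k V]

/-- `W` is invariant under `H`. -/
def Inv (ρ : Representation k L V) (H : Subgroup L) (W : Submodule k V) : Prop :=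
  ∀ g ∈ H, ∀ x ∈ W, ρ g x ∈ W

/-- irreducible representation -/
def Irr (ρ : Representation k L V) : Prop :=
  Nontrivial V ∧ ∀ W : Submodule k V, (∀ g, ∀ x ∈ W, ρ g x ∈ W) → W = ⊥ ∨ W = ⊤

/-- the vectors fixed by `H` -/
def fixS (ρ : Representation k L V) (H : Subgroup L) : Submodule k V where
  carrier := {x | ∀ g ∈ H, ρ g x = x}
  add_mem' := fun {x y} hx hy g hg => by rw [map_add, hx g hg, hy g hg]
  zero_mem' := fun g _ => map_zero _
  smul_mem' := fun c x hx g hg => by rw [map_smul, hx g hg]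

/-- the commutator space `[V, H]` -/
def comS (ρ : Representation k L V) (H : Subgroup L) : Submodule k V :=
  Submodule.span k {y | ∃ g ∈ H, ∃ x, y = ρ g x - x}

/-- the span of the images of `v` under `A` -/
def orbS (ρ : Representation k L V) (A : Set L) (v : V) : Submodule k V :=
  Submodule.span k ((fun g => ρ g v) '' A)

/-- the stabiliser of the line through `v` -/
def lineStab (ρ : Representation k L V) (v : V) : Subgroup L where
  carrier := {g | ∃ c : kˣ, ρ g v = (c : k) • v}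
  one_mem' := ⟨1, by simp⟩
  mul_mem' := by
    rintro a b ⟨c, hc⟩ ⟨d, hd⟩
    refine ⟨c * d, ?_⟩
    rw [map_mul, Module.End.mul_apply, hd, map_smul, hc, smul_smul, Units.val_mul, mul_comm]
  inv_mem' := by
    rintro a ⟨c, hc⟩
    refine ⟨c⁻¹, ?_⟩
    have h1 : ρ a⁻¹ (ρ a v) = v := by
      rw [← Module.End.mul_apply, ← map_mul, inv_mul_cancel, map_one, Module.End.one_apply]
    rw [hc, map_smul] at h1
    calc ρ a⁻¹ v = ((c⁻¹ : kˣ) : k) • ((c : k) • ρ a⁻¹ v) := by
          rw [smul_smul, Units.inv_mul, one_smul]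
      _ = _ := by rw [h1]

variable {ρ : Representation k L V}

lemma mem_fixS {H : Subgroup L} {x : V} : x ∈ fixS ρ H ↔ ∀ g ∈ H, ρ g x = x := Iff.rfl

lemma mem_lineStab {v : V} {g : L} : g ∈ lineStab ρ v ↔ ∃ c : kˣ, ρ g v = (c : k) • v := Iff.rfl

lemma rho_mul (ρ : Representation k L V) (a b : L) (x : V) : ρ (a * b) x = ρ a (ρ b x) := by
  rw [map_mul, Module.End.mul_apply]

lemma rho_inv_rho (ρ : Representation k L V) (a : L) (x : V) : ρ a⁻¹ (ρ a x) = x := by
  rw [← rho_mul, inv_mul_cancel, map_one, Module.End.one_apply]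

lemma rho_rho_inv (ρ : Representation k L V) (a : L) (x : V) : ρ a (ρ a⁻¹ x) = x := by
  rw [← rho_mul, mul_inv_cancel, map_one, Module.End.one_apply]

lemma rho_eq_zero {a : L} {x : V} (h : ρ a x = 0) : x = 0 := by
  rw [← rho_inv_rho ρ a x, h, map_zero]

lemma rho_ne_zero {a : L} {x : V} (h : x ≠ 0) : ρ a x ≠ 0 := fun h' => h (rho_eq_zero h')

lemma mem_lineStab_of {v : V} (hv : v ≠ 0) {g : L} {c : k} (h : ρ g v = c • v) :
    g ∈ lineStab ρ v := by
  have hc : c ≠ 0 := by
    rintro rfl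
    rw [zero_smul] at h
    exact hv (rho_eq_zero h)
  exact ⟨Units.mk0 c hc, h⟩

lemma mem_orbS {A : Set L} {v : V} {g : L} (hg : g ∈ A) : ρ g v ∈ orbS ρ A v :=
  Submodule.subset_span ⟨g, hg, rfl⟩

lemma orbS_le {A : Set L} {v : V} {W : Submodule k V} (h : ∀ g ∈ A, ρ g v ∈ W) :
    orbS ρ A v ≤ W := by
  rw [orbS, Submodule.span_le]
  rintro _ ⟨g, hg, rfl⟩
  exact h g hg

lemma orbS_inv {A : Set L} {v : V} {a : L} (h : ∀ g ∈ A, ρ (a * g) v ∈ orbS ρ A v) :
    ∀ x ∈ orbS ρ A v, ρ a x ∈ orbS ρ A v := by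
  have : orbS ρ A v ≤ (orbS ρ A v).comap (ρ a) := orbS_le fun g hg => by
    rw [Submodule.mem_comap, ← rho_mul]
    exact h g hg
  exact fun x hx => this hx

lemma inv_orbS (H : Subgroup L) (v : V) : Inv ρ H (orbS ρ H v) := fun _ ha =>
  orbS_inv fun _ hg => mem_orbS (H.mul_mem ha hg)

lemma self_mem_orbS (H : Subgroup L) (v : V) : v ∈ orbS ρ H v := by
  have := mem_orbS (ρ := ρ) (A := H) (v := v) H.one_mem
  simpa using this

lemma Irr.orbS_top (h : Irr ρ) {v : V} (hv : v ≠ 0) : orbS ρ Set.univ v = ⊤ := by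
  refine (h.2 _ fun a => orbS_inv fun g _ => mem_orbS (Set.mem_univ _)).resolve_left fun h0 => ?_
  have := mem_orbS (ρ := ρ) (A := Set.univ) (v := v) (Set.mem_univ 1)
  rw [h0, Submodule.mem_bot] at this
  exact hv (by simpa using this)

/-- a functional which vanishes on an orbit of an irreducible representation is zero -/
lemma Irr.eq_zero_of_orbit (h : Irr ρ) {v : V} (hv : v ≠ 0) {f : Module.Dual k V}
    (hf : ∀ g, f (ρ g v) = 0) : f = 0 := by
  have h1 : orbS ρ Set.univ v ≤ LinearMap.ker f := orbS_le fun g _ => hf g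
  rw [h.orbS_top hv, top_le_iff, LinearMap.ker_eq_top] at h1
  exact h1

lemma dual_app (ρ : Representation k L V) (g : L) (f : Module.Dual k V) (x : V) :
    ρ.dual g f x = f (ρ g⁻¹ x) := rfl

lemma irr_iff : Irr ρ ↔ ρ.IsIrreducible := by
  constructor
  · rintro ⟨h1, h2⟩
    have : Nontrivial (Subrepresentation ρ) := ⟨⟨⊥, ⊤, fun h => by
      have := congrArg Subrepresentation.toSubmodule h
      exact bot_ne_top (α := Submodule k V) this⟩⟩
    refine ⟨fun W => ?_⟩
    rcases h2 W.toSubmodule (fun g x hx => W.apply_mem_toSubmodule g hx) with h | h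
    · exact Or.inl (Subrepresentation.toSubmodule_injective h)
    · exact Or.inr (Subrepresentation.toSubmodule_injective h)
  · intro h
    refine ⟨?_, fun W hW => ?_⟩
    · by_contra hn
      rw [not_nontrivial_iff_subsingleton] at hn
      have : (⊥ : Subrepresentation ρ) = ⊤ :=
        Subrepresentation.toSubmodule_injective (Subsingleton.elim _ _)
      exact bot_ne_top this
    · rcases eq_bot_or_eq_top (⟨W, fun g x hx => hW g x hx⟩ : Subrepresentation ρ) with h | h
      · exact Or.inl (congrArg Subrepresentation.toSubmodule h)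
      · exact Or.inr (congrArg Subrepresentation.toSubmodule h)

/-- the dual of an irreducible representation is irreducible -/
theorem Irr.dual [FiniteDimensional k V] (h : Irr ρ) : Irr ρ.dual := by
  have := h.1
  refine ⟨inferInstance, fun W hW => ?_⟩
  have h1 : ∀ g, ∀ x ∈ W.dualCoannihilator, ρ g x ∈ W.dualCoannihilator := by
    intro g x hx
    rw [Submodule.mem_dualCoannihilator] at hx ⊢
    intro f hf
    have := hx _ (hW g⁻¹ f hf)
    rwa [dual_app, inv_inv] at this
  have h2 : W.dualCoannihilator.dualAnnihilator = W :=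
    Subspace.dualCoannihilator_dualAnnihilator_eq
  rcases h.2 _ h1 with h3 | h3
  · right
    rw [← h2, h3, Submodule.dualAnnihilator_bot]
  · left
    rw [← h2, h3, Submodule.dualAnnihilator_top]

/-- a `p`-group has a nonzero fixed vector in each nonzero invariant subspace -/
theorem exists_fixed {p : ℕ} (hp : p.Prime) [CharP k p] [Finite L] {H : Subgroup L}
    (hH : IsPGroup p H) {W : Submodule k V} (hW : Inv ρ H W) (h0 : W ≠ ⊥) :
    ∃ x ∈ W, x ≠ 0 ∧ x ∈ fixS ρ H := by
  have : Fact p.Prime := ⟨hp⟩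
  have : Nontrivial W := Submodule.nontrivial_iff_ne_bot.2 h0
  let σ : Representation k H W :=
    Representation.subrepresentation (ρ.comp H.subtype) W fun g x hx => hW g g.2 x hx
  obtain ⟨v, hv, hfix⟩ := Vale.P179.H580.exists_fixed_vector hH σ
  refine ⟨v, v.2, fun h => hv (Subtype.ext h), fun g hg => ?_⟩
  exact congrArg Subtype.val (hfix ⟨g, hg⟩)

/-- a `p`-element fixes each vector whose line it stabilises -/
lemma fix_of_pow {p : ℕ} (hp : p.Prime) [CharP k p] {v : V} {g : L} {m : ℕ}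
    (hg : g ^ p ^ m = 1) (hv : g ∈ lineStab ρ v) : ρ g v = v := by
  have : Fact p.Prime := ⟨hp⟩
  obtain ⟨c, hc⟩ := hv
  by_cases h0 : v = 0
  · rw [h0, map_zero]
  have key : ∀ j : ℕ, ρ (g ^ j) v = (c : k) ^ j • v := by
    intro j
    induction j with
    | zero => simp
    | succ j ih => rw [pow_succ, rho_mul, hc, map_smul, ih, smul_smul, pow_succ, mul_comm]
  have h1 := key (p ^ m)
  rw [hg, map_one, Module.End.one_apply] at h1
  have h2 : ((c : k) ^ p ^ m - 1) • v = 0 := by rw [sub_smul, ← h1, one_smul, sub_self]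
  have h3 : (c : k) ^ p ^ m - 1 = 0 := (smul_eq_zero.1 h2).resolve_right h0
  have h4 : ((c : k) - 1) ^ p ^ m = 0 := by rw [sub_pow_char_pow, one_pow, h3]
  have h5 : (c : k) = 1 := sub_eq_zero.1 (pow_eq_zero_iff (pow_pos hp.pos m).ne' |>.1 h4)
  rw [hc, h5, one_smul]

section SB
variable {B N U : Subgroup L} {S : Set L} {p : ℕ}

/-- a split BN-pair of prime characteristic `p` -/
structure SBP (p : ℕ) (B N U : Subgroup L) (S : Set L) : Prop extends SB p B N U S where
  prime : p.Prime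

/-- a split BN-pair of prime characteristic `p` with abelian `T = B ∩ N` -/
structure SBA (p : ℕ) (B N U : Subgroup L) (S : Set L) : Prop extends SBP p B N U S where
  comm : ∀ x ∈ B, x ∈ N → ∀ y ∈ B, y ∈ N → x * y = y * x

/-- an irreducible representation such that `B` has an eigenvector and an eigenfunctional -/
structure Good (ρ : Representation k L V) (B : Subgroup L) : Prop where
  irr : Irr ρ
  eig : ∃ v : V, v ≠ 0 ∧ B ≤ lineStab ρ v
  eigd : ∃ f : Module.Dual k V, f ≠ 0 ∧ B ≤ lineStab ρ.dual f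

theorem Good.dual [FiniteDimensional k V] (h : Good ρ B) : Good ρ.dual B where
  irr := h.irr.dual
  eig := h.eigd
  eigd := by
    obtain ⟨v, hv0, hv⟩ := h.eig
    refine ⟨Module.Dual.eval k V v, fun h0 => hv0 ?_, fun b hb => ?_⟩
    · exact (Module.forall_dual_apply_eq_zero_iff k v).1 fun φ => by
        simpa using congrArg (fun ψ : Module.Dual k (Module.Dual k V) => ψ φ) h0
    · obtain ⟨c, hc⟩ := hv hb
      refine ⟨c, LinearMap.ext fun φ => ?_⟩
      rw [dual_app, Module.Dual.eval_apply, dual_app, inv_inv, hc, map_smul]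
      rfl

namespace SBP

variable (h : SBP p B N U S)
include h

lemma inv_fixU : Inv ρ B (fixS ρ U) := by
  intro b hb x hx u hu
  have h1 := hx _ (h.toSB.norm_U' hb hu)
  calc ρ u (ρ b x) = ρ b (ρ (b⁻¹ * u * b) x) := by
        rw [← rho_mul, ← rho_mul]; congr 2; group
    _ = ρ b x := by rw [h1]

lemma fixU_of_eig [CharP k p] {v : V} (hv : B ≤ lineStab ρ v) : v ∈ fixS ρ U := by
  intro u hu
  obtain ⟨m, hm⟩ := h.toSB.exists_pow hu
  exact fix_of_pow h.prime hm (hv (h.le hu))

end SBP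

namespace SBA

variable (h : SBA p B N U S)
include h

/-- `B / U` is abelian -/
lemma comm_mem {b c : L} (hb : b ∈ B) (hc : c ∈ B) : b⁻¹ * c * b * c⁻¹ ∈ U := by
  obtain ⟨u, hu, t, htB, htN, rfl⟩ := h.split b hb
  obtain ⟨u', hu', t', htB', htN', rfl⟩ := h.split c hc
  have h1 : t' * t = t * t' := h.comm t' htB' htN' t htB htN
  have e : (u * t)⁻¹ * (u' * t') * (u * t) * (u' * t')⁻¹ =
      t⁻¹ * (u⁻¹ * u' * (t' * u * t'⁻¹)) * t * (t⁻¹ * (t' * t) * t'⁻¹) * u'⁻¹ := by group
  rw [e, h1]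
  have e2 : t⁻¹ * (t * t') * t'⁻¹ = 1 := by group
  rw [e2, mul_one]
  exact mul_mem (h.toSB.norm_U' htB (mul_mem (mul_mem (inv_mem hu) hu')
    (h.normal t' htB' u hu))) (inv_mem hu')

/-- each nonzero `B`-invariant subspace contains a common eigenvector of `B` -/
theorem exists_eig [CharP k p] [IsAlgClosed k] [FiniteDimensional k V] [Finite L]
    {W : Submodule k V} (hW : Inv ρ B W) (h0 : W ≠ ⊥) :
    ∃ x ∈ W, x ≠ 0 ∧ B ≤ lineStab ρ x := by
  obtain ⟨M, ⟨hMW, hM, hM0⟩, hmin⟩ := WellFounded.has_min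
    (wellFounded_lt (α := Submodule k V)) {M | M ≤ W ∧ Inv ρ B M ∧ M ≠ ⊥} ⟨W, le_rfl, hW, h0⟩
  have hmin' : ∀ M' : Submodule k V, M' ≤ M → Inv ρ B M' → M' ≠ ⊥ → M' = M := by
    intro M' h1 h2 h3
    by_contra hne
    exact hmin M' ⟨h1.trans hMW, h2, h3⟩ (lt_of_le_of_ne h1 hne)
  obtain ⟨x, hxM, hx0, hxU⟩ := exists_fixed h.prime h.pgroup
    (W := M) (fun g hg => hM g (h.le hg)) hM0
  have hMU : M ≤ fixS ρ U := by
    have := hmin' (M ⊓ fixS ρ U) inf_le_left
      (fun g hg y hy => ⟨hM g hg y hy.1, h.inv_fixU g hg y hy.2⟩)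
      (fun hb => hx0 (by
        have : x ∈ M ⊓ fixS ρ U := ⟨hxM, hxU⟩
        rwa [hb, Submodule.mem_bot] at this))
    rw [← this]
    exact inf_le_right
  refine ⟨x, hMW hxM, hx0, fun t ht => ?_⟩
  have : Nontrivial M := Submodule.nontrivial_iff_ne_bot.2 hM0
  obtain ⟨μ, hμ⟩ := Module.End.exists_eigenvalue ((ρ t).restrict (hM t ht))
  obtain ⟨y, hy⟩ := hμ.exists_hasEigenvector
  have hy1 : ρ t y = μ • (y : V) := congrArg Subtype.val hy.apply_eq_smul
  let E : Submodule k V := M ⊓ LinearMap.ker (ρ t - μ • LinearMap.id)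
  have hE : ∀ z, z ∈ E ↔ z ∈ M ∧ ρ t z = μ • z := fun z => by
    simp only [E, Submodule.mem_inf, LinearMap.mem_ker, LinearMap.sub_apply, LinearMap.smul_apply,
      LinearMap.id_apply, sub_eq_zero]
  have hEM : E = M := by
    refine hmin' E inf_le_left (fun b hb z hz => ?_) fun hb => ?_
    · rw [hE] at hz ⊢
      refine ⟨hM b hb z hz.1, ?_⟩
      have h1 := hMU (hM t ht z hz.1) _ (h.comm_mem hb ht)
      calc ρ t (ρ b z) = ρ b (ρ (b⁻¹ * t * b * t⁻¹) (ρ t z)) := by
            rw [← rho_mul, ← rho_mul, ← rho_mul]; congr 2; group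
        _ = μ • ρ b z := by rw [h1, hz.2, map_smul]
    · have : (y : V) ∈ E := (hE _).2 ⟨y.2, hy1⟩
      rw [hb, Submodule.mem_bot] at this
      exact hy.2 (Subtype.ext this)
  have hxE : x ∈ E := by rw [hEM]; exact hxM
  exact mem_lineStab_of hx0 ((hE x).1 hxE).2

/-- irreducible representations over an algebraically closed field -/
theorem good [CharP k p] [IsAlgClosed k] [FiniteDimensional k V] [Finite L] (hρ : Irr ρ) :
    Good ρ B where
  irr := hρ
  eig := by
    have := hρ.1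
    obtain ⟨v, -, h0, hv⟩ := h.exists_eig (ρ := ρ) (W := ⊤) (fun _ _ _ _ => trivial) top_ne_bot
    exact ⟨v, h0, hv⟩
  eigd := by
    have := hρ.dual.1
    obtain ⟨v, -, h0, hv⟩ :=
      h.exists_eig (ρ := ρ.dual) (W := ⊤) (fun _ _ _ _ => trivial) top_ne_bot
    exact ⟨v, h0, hv⟩

end SBA

end SB

end Vale.Agent.P183CR
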