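import Vale.Agent.P183CR.Smith

/-!
P183: absolutely irreducible representations over arbitrary fields, Burnside's theorem, extension
of scalars; the Curtis–Richen theory applies to them.
-/

namespace Vale.Agent.P183CR

open Subgroup Vale.Agent.P240.H195 TensorProduct

variable {k L V : Type*} [Field k] [Group L] [AddCommGroup V] [Module k V]

/-- absolutely irreducible: the image spans the endomorphism ring -/
def AbsIrr (ρ : Representation k L V) : Prop :=
  Nontrivial V ∧ Submodule.span k (Set.range ρ) = ⊤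

variable {ρ : Representation k L V}

lemma AbsIrr.inv (h : AbsIrr ρ) {W : Submodule k V} (hW : ∀ g, ∀ x ∈ W, ρ g x ∈ W)
    (f : Module.End k V) : ∀ x ∈ W, f x ∈ W := by
  have hf : f ∈ Submodule.span k (Set.range ρ) := by rw [h.2]; trivial
  induction hf using Submodule.span_induction with
  | mem f hf =>
    obtain ⟨g, rfl⟩ := hf
    exact hW g
  | zero => intro x _; simp
  | add f g _ _ hf hg => intro x hx; exact W.add_mem (hf x hx) (hg x hx)
  | smul c f _ hf => intro x hx; exact W.smul_mem c (hf x hx)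

theorem AbsIrr.irr (h : AbsIrr ρ) : Irr ρ := by
  refine ⟨h.1, fun W hW => or_iff_not_imp_left.2 fun h0 => eq_top_iff.2 fun y _ => ?_⟩
  obtain ⟨x, hx, hx0⟩ := Submodule.exists_mem_ne_zero_of_ne_bot h0
  obtain ⟨φ, hφ⟩ := Module.Projective.exists_dual_eq_one k hx0
  have := h.inv hW (φ.smulRight y) x hx
  rwa [LinearMap.smulRight_apply, hφ, one_smul] at this

/-- endomorphisms which commute with an absolutely irreducible representation are scalars -/
theorem AbsIrr.scalar (h : AbsIrr ρ) {f : Module.End k V} (hf : ∀ g x, f (ρ g x) = ρ g (f x)) :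
    ∃ c : k, ∀ x, f x = c • x := by
  have key : ∀ a : Module.End k V, ∀ x, f (a x) = a (f x) := by
    intro a
    have ha : a ∈ Submodule.span k (Set.range ρ) := by rw [h.2]; trivial
    induction ha using Submodule.span_induction with
    | mem a ha =>
      obtain ⟨g, rfl⟩ := ha
      exact hf g
    | zero => intro x; simp
    | add a b _ _ ha hb => intro x; simp [ha x, hb x]
    | smul c a _ ha => intro x; simp [ha x]
  have := h.1
  obtain ⟨x, hx0⟩ := exists_ne (0 : V)
  obtain ⟨φ, hφ⟩ := Module.Projective.exists_dual_eq_one k hx0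
  refine ⟨φ (f x), fun y => ?_⟩
  have := key (φ.smulRight y) x
  rwa [LinearMap.smulRight_apply, LinearMap.smulRight_apply, hφ, one_smul] at this

/-- **Burnside** -/
theorem Irr.absIrr_of_scalar [FiniteDimensional k V] (h : Irr ρ)
    (hs : ∀ f : Module.End k V, (∀ g x, f (ρ g x) = ρ g (f x)) → ∃ c : k, ∀ x, f x = c • x) :
    AbsIrr ρ := by
  refine ⟨h.1, ?_⟩
  let A : Subalgebra k (Module.End k V) := Algebra.adjoin k (Set.range ρ)
  have hA : ∀ g, ρ g ∈ A := fun g => Algebra.subset_adjoin ⟨g, rfl⟩
  have hAs : Subalgebra.toSubmodule A = Submodule.span k (Set.range ρ) := by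
    rw [Algebra.adjoin_eq_span]
    congr 1
    rw [← MonoidHom.coe_mrange, Submonoid.closure_eq]
  have : IsSimpleModule A V := by
    have := h.1
    refine (isSimpleModule_iff A V).2 ⟨fun W => ?_⟩
    let W' : Submodule k V :=
      { carrier := W
        add_mem' := W.add_mem
        zero_mem' := W.zero_mem
        smul_mem' := fun c x hx => by
          have := W.smul_mem (algebraMap k A c) hx
          rwa [algebraMap_smul] at this }
    rcases h.2 W' (fun g x hx => W.smul_mem ⟨ρ g, hA g⟩ hx) with h1 | h1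
    · left
      ext x
      exact SetLike.ext_iff.1 h1 x
    · right
      ext x
      exact SetLike.ext_iff.1 h1 x
  rw [eq_top_iff, ← hAs]
  intro f _
  have hcomm : ∀ (a : Module.End A V) (x : V), f (a x) = a (f x) := by
    intro a x
    obtain ⟨c, hc⟩ := hs (a.restrictScalars k) fun g y => a.map_smul ⟨ρ g, hA g⟩ y
    have h1 : ∀ y, a y = c • y := hc
    rw [h1, h1, map_smul]
  let f' : Module.End (Module.End A V) V :=
    { toFun := f
      map_add' := f.map_add
      map_smul' := hcomm }
  obtain ⟨s, hs⟩ := Module.Finite.fg_top (R := k) (M := V)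
  obtain ⟨r, hr⟩ := jacobson_density f' s
  have : f = r := LinearMap.ext_on hs fun x hx => hr x hx
  rw [this]
  exact r.2

/-- **Burnside**, over an algebraically closed field -/
theorem Irr.absIrr [FiniteDimensional k V] [IsAlgClosed k] (h : Irr ρ) : AbsIrr ρ := by
  refine h.absIrr_of_scalar fun f hf => ?_
  have := h.1
  obtain ⟨μ, hμ⟩ := Module.End.exists_eigenvalue f
  rcases h.2 (f.eigenspace μ) (fun g x hx => by
    rw [Module.End.mem_eigenspace_iff] at hx ⊢
    rw [hf, hx, map_smul]) with h1 | h1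
  · exact absurd h1 hμ
  · exact ⟨μ, fun x => Module.End.mem_eigenspace_iff.1 (by rw [h1]; trivial)⟩

theorem AbsIrr.dual [FiniteDimensional k V] (h : AbsIrr ρ) : AbsIrr ρ.dual := by
  have := h.1
  refine ⟨inferInstance, ?_⟩
  have h1 : Set.range ρ.dual = Module.Dual.transpose (R := k) '' Set.range ρ := by
    ext f
    constructor
    · rintro ⟨g, rfl⟩
      exact ⟨_, ⟨g⁻¹, rfl⟩, rfl⟩
    · rintro ⟨_, ⟨g, rfl⟩, rfl⟩
      exact ⟨g⁻¹, by rw [Representation.dual_apply, inv_inv]⟩
  rw [h1, ← Submodule.map_span, h.2, Submodule.map_top, LinearMap.range_eq_top]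
  refine (LinearMap.injective_iff_surjective_of_finrank_eq_finrank (K := k) (V := V →ₗ[k] V)
    (V₂ := Module.Dual k V →ₗ[k] Module.Dual k V) ?_).1 ?_
  · simp [Module.finrank_linearMap]
  · refine (injective_iff_map_eq_zero _).2 fun f hf => LinearMap.ext fun x => ?_
    exact (Module.forall_dual_apply_eq_zero_iff k _).1 fun φ =>
      congrArg (fun ψ : Module.End k (Module.Dual k V) => ψ φ x) hf

/-- extension of scalars -/
noncomputable def bc (K : Type*) [Field K] [Algebra k K] (ρ : Representation k L V) :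
    Representation K L (K ⊗[k] V) :=
  (Module.End.baseChangeHom k K V : Module.End k V →* Module.End K (K ⊗[k] V)).comp ρ

section bc
variable (K : Type*) [Field K] [Algebra k K]

lemma bc_apply (g : L) : bc K ρ g = (ρ g).baseChange K := rfl

@[simp] lemma bc_tmul (g : L) (c : K) (x : V) : bc K ρ g (c ⊗ₜ x) = c ⊗ₜ ρ g x := rfl

lemma one_tmul_inj {x : V} (hx : (1 : K) ⊗ₜ[k] x = 0) : x = 0 := by
  by_contra h0
  obtain ⟨φ, hφ⟩ := Module.Projective.exists_dual_eq_one k h0
  have := congrArg (fun z => TensorProduct.rid k K (φ.lTensor K z)) hx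
  simp [hφ] at this

theorem AbsIrr.bc [FiniteDimensional k V] (h : AbsIrr ρ) : AbsIrr (bc K ρ) := by
  classical
  have := h.1
  obtain ⟨x, hx⟩ := exists_ne (0 : V)
  refine ⟨⟨_, 0, fun h0 => hx (one_tmul_inj K h0)⟩, eq_top_iff.2 fun F _ => ?_⟩
  have h1 : ∀ f : Module.End k V,
      f.baseChange K ∈ Submodule.span K (Set.range (P183CR.bc K ρ)) := by
    intro f
    have hf : f ∈ Submodule.span k (Set.range ρ) := by rw [h.2]; trivial
    induction hf using Submodule.span_induction with
    | mem f hf =>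
      obtain ⟨g, rfl⟩ := hf
      exact Submodule.subset_span ⟨g, rfl⟩
    | zero => rw [LinearMap.baseChange_zero]; exact zero_mem _
    | add f g _ _ hf hg => rw [LinearMap.baseChange_add]; exact add_mem hf hg
    | smul c f _ hf =>
      rw [LinearMap.baseChange_smul]
      exact Submodule.smul_of_tower_mem _ c hf
  let b := Module.finBasis k V
  let β := Algebra.TensorProduct.basis K b
  have h2 : F = ∑ i, ∑ j, β.repr (F (β j)) i • ((b.coord j).smulRight (b i)).baseChange K := by
    refine β.ext fun l => ?_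
    have h3 : ∀ i j, (((b.coord j).smulRight (b i)).baseChange K) (β l) =
        if l = j then β i else 0 := by
      intro i j
      simp only [β, Algebra.TensorProduct.basis_apply, LinearMap.baseChange_tmul,
        LinearMap.smulRight_apply, Module.Basis.coord_apply, Module.Basis.repr_self,
        Finsupp.single_apply]
      split_ifs <;> simp
    simp only [LinearMap.sum_apply, LinearMap.smul_apply, h3, smul_ite, smul_zero,
      Finset.sum_ite_eq, Finset.mem_univ, if_true]
    exact (β.sum_repr _).symm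
  rw [h2]
  exact Submodule.sum_mem _ fun i _ => Submodule.sum_mem _ fun j _ =>
    Submodule.smul_mem _ _ (h1 _)

lemma exists_smul_of_tmul {x y : V} (hx : x ≠ 0) {c : K}
    (h : (1 : K) ⊗ₜ[k] y = c • ((1 : K) ⊗ₜ[k] x)) : ∃ d : k, y = d • x := by
  obtain ⟨φ, hφ⟩ := Module.Projective.exists_dual_eq_one k hx
  have h1 := congrArg (fun z => TensorProduct.rid k K (φ.lTensor K z)) h
  simp only [smul_tmul', LinearMap.lTensor_tmul, rid_tmul, hφ, one_smul, smul_eq_mul,
    mul_one] at h1
  refine ⟨φ y, sub_eq_zero.1 (one_tmul_inj (k := k) K ?_)⟩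
  rw [tmul_sub, h, ← h1, tmul_smul, smul_tmul', smul_tmul', smul_eq_mul, mul_one, sub_self]

end bc

variable {B N U : Subgroup L} {S : Set L} {p : ℕ}

lemma SBA.eig_of_absIrr (h : SBA p B N U S) [CharP k p] [FiniteDimensional k V] [Finite L]
    (hρ : AbsIrr ρ) : ∃ v : V, v ≠ 0 ∧ B ≤ lineStab ρ v := by
  let K := AlgebraicClosure k
  have : CharP K p := charP_of_injective_algebraMap (algebraMap k K).injective p
  have hg := h.good (hρ.bc K).irr
  obtain ⟨v, hv, hv0⟩ := h.exists_fix hρ.irr
  have key : ∀ x ∈ fixS ρ U, (1 : K) ⊗ₜ[k] x ∈ fixS (bc K ρ) U := fun x hx u hu => by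
    rw [bc_tmul, hx u hu]
  refine ⟨v, hv0, fun b hb => ?_⟩
  obtain ⟨c, hc⟩ := h.fix_line hg (key v hv) (fun h0 => hv0 (one_tmul_inj K h0))
    (key _ (h.inv_fixU b hb v hv))
  obtain ⟨d, hd⟩ := exists_smul_of_tmul K hv0 hc
  exact mem_lineStab_of hv0 hd

/-- absolutely irreducible representations over an arbitrary field of characteristic `p` -/
theorem SBA.good_of_absIrr (h : SBA p B N U S) [CharP k p] [FiniteDimensional k V] [Finite L]
    (hρ : AbsIrr ρ) : Good ρ B :=
  ⟨hρ.irr, h.eig_of_absIrr hρ, h.eig_of_absIrr hρ.dual⟩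

theorem SBP.absIrr (h : SBP p B N U S) [CharP k p] [FiniteDimensional k V] [Finite L]
    (hρ : Good ρ B) : AbsIrr ρ := by
  refine hρ.irr.absIrr_of_scalar fun f hf => ?_
  obtain ⟨v, hv, hv0⟩ := h.exists_fix hρ.irr
  obtain ⟨c, hc⟩ := h.fix_line hρ hv hv0 (x := f v) fun u hu => by rw [← hf, hv u hu]
  refine ⟨c, fun x => ?_⟩
  have h1 : orbS ρ Set.univ v ≤ LinearMap.ker (f - c • LinearMap.id) := orbS_le fun g _ => by
    rw [LinearMap.mem_ker, LinearMap.sub_apply, hf, hc, map_smul, LinearMap.smul_apply,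
      LinearMap.id_apply, sub_self]
  rw [hρ.irr.orbS_top hv0] at h1
  exact sub_eq_zero.1 (h1 (Submodule.mem_top (x := x)))

/-- extension of scalars preserves the hypotheses of the Curtis–Richen theory -/
theorem SBP.good_bc (h : SBP p B N U S) [CharP k p] [FiniteDimensional k V] [Finite L]
    (hρ : Good ρ B) (K : Type*) [Field K] [Algebra k K] : Good (bc K ρ) B where
  irr := ((h.absIrr hρ).bc K).irr
  eig := by
    obtain ⟨v, hv0, hv⟩ := hρ.eig
    refine ⟨1 ⊗ₜ v, fun h0 => hv0 (one_tmul_inj K h0), fun b hb => ?_⟩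
    obtain ⟨c, hc⟩ := hv hb
    refine mem_lineStab_of (fun h0 => hv0 (one_tmul_inj K h0)) (c := algebraMap k K c) ?_
    rw [bc_tmul, hc, tmul_smul, algebraMap_smul]
  eigd := by
    obtain ⟨f, hf0, hf⟩ := hρ.eigd
    have h0 : Module.Dual.baseChange K f ≠ 0 := by
      intro h0
      refine hf0 (LinearMap.ext fun x => ?_)
      have := congrArg (fun ψ : Module.Dual K (K ⊗[k] V) => ψ (1 ⊗ₜ x)) h0
      simpa using this
    refine ⟨Module.Dual.baseChange K f, h0, fun b hb => ?_⟩
    obtain ⟨c, hc⟩ := hf hb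
    refine mem_lineStab_of h0 (c := algebraMap k K c) ?_
    refine TensorProduct.AlgebraTensorModule.ext fun a x => ?_
    have := congrArg (fun ψ : Module.Dual k V => ψ x) hc
    simp only [dual_app, LinearMap.smul_apply, smul_eq_mul] at this
    rw [dual_app, bc_tmul]
    simp [this, mul_smul]

end Vale.Agent.P183CR
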