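import Vale.Agent.P183CR.Basic

/-!
P183: the Hecke operators `T_s`, cyclicity `V = k[U] n₀ v`, and `dim V^U = 1` (Curtis, Richen).
-/

namespace Vale.Agent.P183CR

open Subgroup Vale.Agent.P240.H195

variable {k L V : Type*} [Field k] [Group L] [AddCommGroup V] [Module k V]
variable {ρ : Representation k L V} {B N U : Subgroup L} {S : Set L} {p : ℕ}

/-- the elements `u s` with `u s B ≠ s B` -/
def adjS (B U : Subgroup L) (s : L) : Set L := {g | ∃ u ∈ U, s⁻¹ * u * s ∉ B ∧ g = u * s}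

namespace SBP

variable (h : SBP p B N U S)
include h

lemma exists_move {s : L} (hs : s ∈ S) : ∃ u ∈ U, s⁻¹ * u * s ∉ B := by
  obtain ⟨b, hb, hbs⟩ := h.thick s hs
  obtain ⟨u, hu, t, htB, htN, rfl⟩ := h.split b hb
  refine ⟨u, hu, fun hc => hbs ?_⟩
  have e : s⁻¹ * (u * t) * s = (s⁻¹ * u * s) * (s⁻¹ * t * s) := by group
  rw [e]
  exact mul_mem hc (h.norm' (h.sub s hs) htB htN)

/-- the vector `T_s v = ∑ u s v`, summed over the chambers `u s B` -/
theorem exists_T [CharP k p] [Finite L] {v : V} (hv : B ≤ lineStab ρ v) {s : L} (hs : s ∈ S) :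
    ∃ w : V, (∀ b ∈ B, ∃ c : k, ρ b w = c • w) ∧ w - ρ s v ∈ orbS ρ (adjS B U s) v ∧
      ∀ φ : Module.Dual k V, (∀ u ∈ U, φ (ρ (u * s) v) = φ (ρ s v)) → φ w = 0 := by
  classical
  have : Fact p.Prime := ⟨h.prime⟩
  have := Fintype.ofFinite (L ⧸ B)
  have hvU := h.fixU_of_eig hv
  have hsN := h.sub s hs
  let O : L ⧸ B → Prop := fun d => ∃ u ∈ U, ((u * s : L) : L ⧸ B) = d
  let F : L ⧸ B → V := fun d => if hd : O d then ρ (hd.choose * s) v else 0
  have hF : ∀ u ∈ U, F ((u * s : L) : L ⧸ B) = ρ (u * s) v := by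
    intro u hu
    have hd : O ((u * s : L) : L ⧸ B) := ⟨u, hu, rfl⟩
    obtain ⟨h1, h2⟩ := hd.choose_spec
    simp only [F, dif_pos hd]
    rw [QuotientGroup.eq] at h2
    have e : (hd.choose * s)⁻¹ * (u * s) = s⁻¹ * (hd.choose⁻¹ * u) * s := by group
    rw [e] at h2
    have h3 := hvU _ (h.toSB.conj_U' h.prime (mul_mem (inv_mem h1) hu) h2)
    calc ρ (hd.choose * s) v = ρ (hd.choose * s) (ρ (s⁻¹ * (hd.choose⁻¹ * u) * s) v) := by rw [h3]
      _ = _ := by rw [← rho_mul]; congr 2; group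
  have hF0 : ∀ d, ¬ O d → F d = 0 := fun d hd => by simp only [F, dif_neg hd]
  have hO : ∀ b ∈ B, ∀ d, O d → O (b • d) := by
    rintro b hb _ ⟨u, hu, rfl⟩
    obtain ⟨u₀, hu₀, t, htB, htN, rfl⟩ := h.split b hb
    refine ⟨u₀ * (t * u * t⁻¹), mul_mem hu₀ (h.normal t htB u hu), ?_⟩
    rw [MulAction.Quotient.smul_coe, QuotientGroup.eq, smul_eq_mul]
    have e : (u₀ * (t * u * t⁻¹) * s)⁻¹ * (u₀ * t * (u * s)) = s⁻¹ * t * s := by group
    rw [e]
    exact h.norm' hsN htB htN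
  refine ⟨∑ d, F d, fun b hb => ?_, ?_, fun φ hφ => ?_⟩
  · obtain ⟨u₀, hu₀, t, htB, htN, rfl⟩ := h.split b hb
    obtain ⟨c, hc⟩ := hv (h.norm' hsN htB htN)
    refine ⟨c, ?_⟩
    have key : ∀ d, ρ (u₀ * t) (F d) = (c : k) • F ((u₀ * t) • d) := by
      intro d
      by_cases hd : O d
      · obtain ⟨u, hu, rfl⟩ := hd
        have hu' : u₀ * (t * u * t⁻¹) ∈ U := mul_mem hu₀ (h.normal t htB u hu)
        have e1 : (u₀ * t) • ((u * s : L) : L ⧸ B) = ((u₀ * (t * u * t⁻¹) * s : L) : L ⧸ B) := by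
          rw [MulAction.Quotient.smul_coe, eq_comm, QuotientGroup.eq, smul_eq_mul]
          have e : (u₀ * (t * u * t⁻¹) * s)⁻¹ * (u₀ * t * (u * s)) = s⁻¹ * t * s := by group
          rw [e]
          exact h.norm' hsN htB htN
        rw [e1, hF u hu, hF _ hu', ← map_smul, ← hc, ← rho_mul, ← rho_mul]
        congr 2
        group
      · have hd' : ¬ O ((u₀ * t) • d) := fun h1 => hd (by
          have := hO _ (inv_mem hb) _ h1
          rwa [inv_smul_smul] at this)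
        rw [hF0 d hd, hF0 _ hd', map_zero, smul_zero]
    rw [map_sum, Finset.smul_sum]
    simp_rw [key]
    exact Equiv.sum_comp (MulAction.toPerm (u₀ * t)) (fun d => (c : k) • F d)
  · have h1 : F ((s : L) : L ⧸ B) = ρ s v := by
      have := hF 1 (one_mem _)
      rwa [one_mul] at this
    rw [← Finset.add_sum_erase _ _ (Finset.mem_univ ((s : L) : L ⧸ B)), h1, add_sub_cancel_left]
    refine Submodule.sum_mem _ fun d hd => ?_
    by_cases hd' : O d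
    · obtain ⟨u, hu, rfl⟩ := hd'
      rw [hF u hu]
      refine mem_orbS ⟨u, hu, fun hc => (Finset.mem_erase.1 hd).1 ?_, rfl⟩
      rw [eq_comm, QuotientGroup.eq]
      rwa [← mul_assoc]
    · rw [hF0 d hd']
      exact zero_mem _
  · have h1 : ∀ d, φ (F d) = if O d then φ (ρ s v) else 0 := by
      intro d
      by_cases hd : O d
      · rw [if_pos hd]
        obtain ⟨u, hu, rfl⟩ := hd
        rw [hF u hu, hφ u hu]
      · rw [if_neg hd, hF0 d hd, map_zero]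
    rw [map_sum]
    simp_rw [h1]
    rw [← Finset.sum_filter, Finset.sum_const, nsmul_eq_mul]
    have h2 : ∀ d, O d ↔ d ∈ MulAction.orbit U ((s : L) : L ⧸ B) := by
      intro d
      constructor
      · rintro ⟨u, hu, rfl⟩
        exact ⟨⟨u, hu⟩, rfl⟩
      · rintro ⟨u, rfl⟩
        exact ⟨u, u.2, rfl⟩
    obtain ⟨m, hm⟩ := h.pgroup.card_orbit ((s : L) : L ⧸ B)
    have h3 : (Finset.univ.filter O).card = p ^ m := by
      rw [← hm, ← Fintype.card_subtype, ← Nat.card_eq_fintype_card]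
      exact Nat.card_congr (Equiv.subtypeEquivRight h2)
    have hm0 : m ≠ 0 := by
      rintro rfl
      obtain ⟨u, hu, hus⟩ := h.exists_move hs
      rw [pow_zero, Finset.card_eq_one] at h3
      obtain ⟨a, ha⟩ := h3
      have e1 : ((u * s : L) : L ⧸ B) ∈ Finset.univ.filter O :=
        Finset.mem_filter.2 ⟨Finset.mem_univ _, u, hu, rfl⟩
      have e2 : ((1 * s : L) : L ⧸ B) ∈ Finset.univ.filter O :=
        Finset.mem_filter.2 ⟨Finset.mem_univ _, 1, one_mem _, rfl⟩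
      rw [ha, Finset.mem_singleton] at e1 e2
      have e3 := e2.trans e1.symm
      rw [QuotientGroup.eq, one_mul, ← mul_assoc] at e3
      exact hus e3
    rw [h3, Nat.cast_pow, CharP.cast_eq_zero, zero_pow hm0, zero_mul]

omit h in
lemma eig_dc {v : V} (hv : B ≤ lineStab ρ v) {f : Module.Dual k V} (hf : B ≤ lineStab ρ.dual f)
    {n g : L} (hd : DC B n g) (h0 : f (ρ n v) = 0) : f (ρ g v) = 0 := by
  obtain ⟨a, ha, b, hb, rfl⟩ := hd
  obtain ⟨c, hc⟩ := hv hb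
  obtain ⟨d, hd⟩ := hf (inv_mem ha)
  have h1 := congrArg (fun φ : Module.Dual k V => φ (ρ n v)) hd
  simp only [dual_app, inv_inv, LinearMap.smul_apply, h0, smul_zero] at h1
  rw [rho_mul, hc, map_smul, map_smul, rho_mul, h1, smul_zero]

lemma len_lt {n s : L} {j : ℕ} (hn : h.toBN0.Len j n) (hs : s ∈ S) (hr : ¬ RG B n s) :
    ∃ i < j, h.toBN0.Len i (n * s) := by
  have hnN := h.wd_mem hn.1
  have hsN := h.sub s hs
  obtain ⟨i, hi⟩ := h.exists_len (mul_mem hnN hsN)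
  have h1 := h.len_mul hi hs ((h.rg_or hnN hs).resolve_left hr)
  have h2 := h.len_congr h1 hnN (by
    have e : (n * s * s)⁻¹ * n = s⁻¹ * s⁻¹ := by group
    rw [e]
    exact h.inv_mul hs)
  have := h.len_unique h2 hn
  exact ⟨i, by omega, hi⟩

/-- a functional fixed by `U` is constant on `n u s v` if `n s` is longer than `n` -/
lemma const_of_rg [Finite L] {v : V} (hv : v ∈ fixS ρ U) {f : Module.Dual k V}
    (hf : f ∈ fixS ρ.dual U) {n s : L} (hn : n ∈ N) (hs : s ∈ S) (hr : RG B n s) {u : L}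
    (hu : u ∈ U) : f (ρ n (ρ (u * s) v)) = f (ρ n (ρ s v)) := by
  obtain ⟨x, hx, hnx, hxu⟩ := h.toSB.transit h.prime hn hs (h.le hu) hr
  have e : (x * s)⁻¹ * (u * s) = s⁻¹ * (x⁻¹ * u) * s := by group
  rw [e] at hxu
  have h1 := hv _ (h.toSB.conj_U' h.prime (mul_mem (inv_mem hx) hu) hxu)
  have h2 := congrArg (fun φ : Module.Dual k V => φ (ρ n (ρ s v))) (hf _ (inv_mem hnx))
  simp only [dual_app, inv_inv] at h2
  rw [← h2]
  conv_rhs => rw [← h1]
  simp only [← rho_mul]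
  congr 3
  group

/-- a common eigenvector of `B` and of all operators `T_s` -/
theorem exists_common [CharP k p] [Finite L]
    (hρ : Good ρ B) : ∃ v : V, v ≠ 0 ∧ B ≤ lineStab ρ v ∧
      ∀ s ∈ S, ∃ c : k, c • v - ρ s v ∈ orbS ρ (adjS B U s) v := by
  classical
  obtain ⟨f, hf0, hf⟩ := hρ.eigd
  have hfU := h.fixU_of_eig hf
  obtain ⟨v₀, hv₀0, hv₀⟩ := hρ.eig
  obtain ⟨D, ⟨hD, v, hv0, hv, hvD⟩, hmax⟩ := WellFounded.has_min
    (wellFounded_gt (α := Set L))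
    {D | (∀ n ∈ D, n ∈ N ∧ ∀ s ∈ S, ¬ RG B n s → n * s ∈ D) ∧
      ∃ v : V, v ≠ 0 ∧ B ≤ lineStab ρ v ∧ ∀ n ∈ D, f (ρ n v) = 0}
    ⟨∅, fun _ hn => hn.elim, v₀, hv₀0, hv₀, fun _ hn => hn.elim⟩
  have hex : ∃ j, ∃ n, h.toBN0.Len j n ∧ n ∉ D := by
    by_contra hcon
    push Not at hcon
    refine hf0 (hρ.irr.eq_zero_of_orbit hv0 fun g => ?_)
    obtain ⟨n, hn, hd⟩ := h.bruhat g
    obtain ⟨j, hj⟩ := h.exists_len hn
    exact eig_dc hv hf hd (hvD n (hcon j n hj))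
  obtain ⟨n₁, hn₁, hn₁D⟩ := Nat.find_spec hex
  have hn₁N := h.wd_mem hn₁.1
  have hkey : ∀ w : V, (∀ b ∈ B, ∃ c : k, ρ b w = c • w) → (∀ n ∈ D, f (ρ n w) = 0) →
      f (ρ n₁ w) = 0 → w = 0 := by
    intro w hw hwD hw1
    by_contra hw0
    refine hmax (insert n₁ D) ⟨?_, w, hw0, fun b hb => ?_, ?_⟩ (Set.ssubset_insert hn₁D)
    · rintro n (rfl | hn)
      · refine ⟨hn₁N, fun s hs hr => Or.inr ?_⟩
        obtain ⟨i, hi, hl⟩ := h.len_lt hn₁ hs hr
        by_contra hc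
        exact Nat.find_min hex hi ⟨_, hl, hc⟩
      · exact ⟨(hD n hn).1, fun s hs hr => Or.inr ((hD n hn).2 s hs hr)⟩
    · obtain ⟨c, hc⟩ := hw b hb
      exact mem_lineStab_of hw0 hc
    · rintro n (rfl | hn)
      · exact hw1
      · exact hwD n hn
  have hv1 : f (ρ n₁ v) ≠ 0 := fun h1 => hv0 (hkey v (fun b hb => by
    obtain ⟨c, hc⟩ := hv hb
    exact ⟨c, hc⟩) hvD h1)
  refine ⟨v, hv0, hv, fun s hs => ?_⟩
  obtain ⟨w, hw1, hw2, hw3⟩ := h.exists_T hv hs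
  have hwD : ∀ n ∈ D, f (ρ n w) = 0 := by
    intro n hn
    by_cases hr : RG B n s
    · exact hw3 (f ∘ₗ ρ n) fun u hu =>
        h.const_of_rg (h.fixU_of_eig hv) hfU (hD n hn).1 hs hr hu
    · have h1 : ∀ u ∈ U, f (ρ n (ρ (u * s) v)) = 0 := by
        intro u hu
        rw [← rho_mul, ← mul_assoc]
        rcases h.mul' hs (h.le hu) (hD n hn).1 with h2 | h2
        · exact eig_dc hv hf h2 (hvD n hn)
        · exact eig_dc hv hf h2 (hvD _ ((hD n hn).2 s hs hr))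
      have h2 : orbS ρ (adjS B U s) v ≤ LinearMap.ker (f ∘ₗ ρ n) := orbS_le <| by
        rintro _ ⟨u, hu, -, rfl⟩
        exact h1 u hu
      have h3 : f (ρ n (w - ρ s v)) = 0 := h2 hw2
      have h4 := h1 1 (one_mem _)
      rw [one_mul] at h4
      rwa [map_sub, map_sub, h4, sub_zero] at h3
  by_cases hw0 : f (ρ n₁ w) = 0
  · rw [hkey w hw1 hwD hw0] at hw2
    exact ⟨0, by rwa [zero_smul]⟩
  refine ⟨f (ρ n₁ w) / f (ρ n₁ v), ?_⟩
  have hw0' : w ≠ 0 := by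
    rintro rfl
    exact hw0 (by simp)
  have hwB : B ≤ lineStab ρ w := fun b hb => by
    obtain ⟨c, hc⟩ := hw1 b hb
    exact mem_lineStab_of hw0' hc
  have h5 : w - (f (ρ n₁ w) / f (ρ n₁ v)) • v = 0 := by
    refine hkey _ (fun b hb => ?_) (fun n hn => ?_) ?_
    · obtain ⟨u, hu, t, htB, htN, rfl⟩ := h.split b hb
      obtain ⟨γ, hγ⟩ := hf (inv_mem (h.norm n₁ hn₁N t htB htN))
      have aux : ∀ x : V, B ≤ lineStab ρ x → f (ρ n₁ x) ≠ 0 → ρ (u * t) x = (γ : k) • x := by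
        intro x hx hx1
        obtain ⟨α, hα⟩ := hx htB
        have h6 := congrArg (fun φ : Module.Dual k V => φ (ρ n₁ x)) hγ
        simp only [dual_app, inv_inv, LinearMap.smul_apply, ← rho_mul, inv_mul_cancel_right] at h6
        rw [rho_mul, hα, map_smul, map_smul, smul_eq_mul, smul_eq_mul] at h6
        rw [rho_mul, hα, map_smul, h.fixU_of_eig hx u hu, mul_right_cancel₀ hx1 h6]
      refine ⟨γ, ?_⟩
      rw [map_sub, map_smul, aux w hwB hw0, aux v hv hv1, smul_sub, smul_comm]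
    · rw [map_sub, map_sub, map_smul, map_smul, hwD n hn, hvD n hn, smul_zero, sub_zero]
    · rw [map_sub, map_sub, map_smul, map_smul, smul_eq_mul, div_mul_cancel₀ _ hv1, sub_self]
  rw [← sub_eq_zero.1 h5]
  exact hw2

/-- downward induction on the length -/
lemma long_induction {n₀ : L} (hn₀ : h.toBN0.Long n₀) {P : L → Prop}
    (h0 : ∀ n, h.toBN0.Long n → P n)
    (h1 : ∀ n ∈ N, ∀ s ∈ S, RG B n s → P (n * s) → P n) : ∀ n ∈ N, P n := by
  obtain ⟨l, hl⟩ := h.exists_len hn₀.1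
  have key : ∀ d j n, h.toBN0.Len j n → l ≤ j + d → P n := by
    intro d
    induction d with
    | zero =>
      intro j n hn hj
      refine h0 n ⟨h.wd_mem hn.1, fun s hs hr => ?_⟩
      obtain ⟨i, hi, -⟩ := h.suffix hn₀ hl _ _ (h.len_mul hn hs hr)
      omega
    | succ d ih =>
      intro j n hn hj
      by_cases hL : ∀ s ∈ S, ¬ RG B n s
      · exact h0 n ⟨h.wd_mem hn.1, hL⟩
      · push Not at hL
        obtain ⟨s, hs, hr⟩ := hL
        exact h1 n (h.wd_mem hn.1) s hs hr (ih _ _ (h.len_mul hn hs hr) (by omega))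
  intro n hn
  obtain ⟨j, hj⟩ := h.exists_len hn
  exact key l j n hj (by omega)

lemma inv_cell {v : V} (hv : B ≤ lineStab ρ v) {n : L} (hn : n ∈ N) :
    Inv ρ B (orbS ρ {g | ∃ u ∈ U, g = u * n} v) := by
  intro b hb
  refine orbS_inv ?_
  rintro _ ⟨u, hu, rfl⟩
  obtain ⟨u₀, hu₀, t, htB, htN, rfl⟩ := h.split b hb
  obtain ⟨c, hc⟩ := hv (h.norm' hn htB htN)
  have e : u₀ * t * (u * n) = u₀ * (t * u * t⁻¹) * n * (n⁻¹ * t * n) := by group
  rw [e, rho_mul, hc, map_smul]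
  exact Submodule.smul_mem _ _ (mem_orbS ⟨_, mul_mem hu₀ (h.normal t htB u hu), rfl⟩)

omit h in
lemma mem_of_dc {v : V} (hv : B ≤ lineStab ρ v) {W : Submodule k V} (hW : Inv ρ B W) {n g : L}
    (hd : DC B n g) (h0 : ρ n v ∈ W) : ρ g v ∈ W := by
  obtain ⟨a, ha, b, hb, rfl⟩ := hd
  obtain ⟨c, hc⟩ := hv hb
  rw [rho_mul, hc, map_smul, rho_mul]
  exact W.smul_mem _ (hW a ha _ h0)

lemma cyclic_aux {v : V} (hρ : Irr ρ) (hv0 : v ≠ 0) (hv : B ≤ lineStab ρ v)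
    (hT : ∀ s ∈ S, ∃ c : k, c • v - ρ s v ∈ orbS ρ (adjS B U s) v) {n₀ : L}
    (hn₀ : h.toBN0.Long n₀) : orbS ρ {g | ∃ u ∈ U, g = u * n₀} v = ⊤ := by
  have hW := h.inv_cell hv hn₀.1
  set W := orbS ρ {g | ∃ u ∈ U, g = u * n₀} v
  have h0 : ρ n₀ v ∈ W := mem_orbS ⟨1, one_mem _, (one_mul _).symm⟩
  have key : ∀ n ∈ N, ρ n v ∈ W := by
    refine h.long_induction hn₀ (fun n hn => ?_) fun n hn s hs hr ih => ?_
    · exact mem_of_dc hv hW (DC_of_inv (h.long_unique hn₀ hn)) h0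
    · obtain ⟨c, hc⟩ := hT s hs
      have h1 : orbS ρ (adjS B U s) v ≤ W.comap (ρ (n * s)) := orbS_le <| by
        rintro _ ⟨u, hu, hus, rfl⟩
        rw [Submodule.mem_comap, ← rho_mul]
        refine mem_of_dc hv hW ?_ ih
        have h2 : s⁻¹ * u * s ∈ Par B s :=
          mul_mem (mul_mem (inv_mem self_mem_Par) (le_Par (h.le hu))) self_mem_Par
        obtain ⟨a, ha, b, hb, hab⟩ := ((h.mem_Par hs).1 h2).resolve_left hus
        have e : n * s * (u * s) = n * (s * s * a) * s * b := by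
          calc n * s * (u * s) = n * (s * s) * (s⁻¹ * u * s) := by group
            _ = _ := by rw [hab]; group
        rw [e]
        exact (hr _ (mul_mem (h.sq s hs) ha)).right hb
      have h2 : ρ (n * s) (c • v - ρ s v) ∈ W := h1 hc
      rw [map_sub, map_smul, ← rho_mul] at h2
      have h3 : ρ (n * s * s) v ∈ W := by
        have := W.sub_mem (W.smul_mem c ih) h2
        rwa [sub_sub_cancel] at this
      refine mem_of_dc hv hW (DC_of_inv ?_) h3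
      have e : (n * s * s)⁻¹ * n = s⁻¹ * s⁻¹ := by group
      rw [e]
      exact h.inv_mul hs
  rw [eq_top_iff, ← hρ.orbS_top hv0]
  refine orbS_le fun g _ => ?_
  obtain ⟨n, hn, hd⟩ := h.bruhat g
  exact mem_of_dc hv hW hd (key n hn)

variable [CharP k p] [FiniteDimensional k V] [Finite L]

/-- **Curtis–Richen**: two vectors fixed by `U` are proportional -/
theorem fix_line (hρ : Good ρ B) {v x : V} (hv : v ∈ fixS ρ U) (hv0 : v ≠ 0) (hx : x ∈ fixS ρ U) :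
    ∃ c : k, x = c • v := by
  obtain ⟨f, hf0, hf, hT⟩ := h.exists_common hρ.dual
  obtain ⟨n₀, hn₀⟩ := h.toBN0.exists_long
  have h1 := h.cyclic_aux hρ.irr.dual hf0 hf hT hn₀
  have key : ∀ y ∈ fixS ρ U, f (ρ n₀⁻¹ y) = 0 → y = 0 := by
    intro y hy hy0
    have h2 : orbS ρ.dual {g | ∃ u ∈ U, g = u * n₀} f ≤ LinearMap.ker (Module.Dual.eval k V y) :=
      orbS_le <| by
        rintro _ ⟨u, hu, rfl⟩
        rw [LinearMap.mem_ker, Module.Dual.eval_apply, dual_app, mul_inv_rev, rho_mul,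
          hy _ (inv_mem hu), hy0]
    rw [h1] at h2
    exact (Module.forall_dual_apply_eq_zero_iff k y).1 fun φ => h2 (Submodule.mem_top (x := φ))
  have hv1 : f (ρ n₀⁻¹ v) ≠ 0 := fun h2 => hv0 (key v hv h2)
  refine ⟨f (ρ n₀⁻¹ x) / f (ρ n₀⁻¹ v),
    sub_eq_zero.1 (key _ (sub_mem hx (Submodule.smul_mem _ _ hv)) ?_)⟩
  rw [map_sub, map_sub, map_smul, map_smul, smul_eq_mul, div_mul_cancel₀ _ hv1, sub_self]

omit [FiniteDimensional k V] in
theorem exists_fix (hρ : Irr ρ) : ∃ v ∈ fixS ρ U, v ≠ 0 := by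
  have := hρ.1
  obtain ⟨v, -, hv0, hv⟩ := exists_fixed (ρ := ρ) h.prime h.pgroup (W := ⊤)
    (fun _ _ _ _ => trivial) top_ne_bot
  exact ⟨v, hv, hv0⟩

theorem fixS_eq_span (hρ : Good ρ B) {v : V} (hv : v ∈ fixS ρ U) (hv0 : v ≠ 0) :
    fixS ρ U = k ∙ v := by
  refine le_antisymm (fun x hx => ?_) ((Submodule.span_singleton_le_iff_mem _ _).2 hv)
  obtain ⟨c, rfl⟩ := h.fix_line hρ hv hv0 hx
  exact Submodule.smul_mem _ _ (Submodule.mem_span_singleton_self v)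

/-- **Curtis–Richen**: `dim V^U = 1` -/
theorem finrank_fixS (hρ : Good ρ B) : Module.finrank k (fixS ρ U) = 1 := by
  obtain ⟨v, hv, hv0⟩ := h.exists_fix hρ.irr
  rw [h.fixS_eq_span hρ hv hv0, finrank_span_singleton hv0]

/-- `B` stabilises the line `V^U` -/
theorem le_lineStab (hρ : Good ρ B) {v : V} (hv : v ∈ fixS ρ U) (hv0 : v ≠ 0) :
    B ≤ lineStab ρ v := fun b hb => by
  obtain ⟨c, hc⟩ := h.fix_line hρ hv hv0 (h.inv_fixU b hb v hv)
  exact mem_lineStab_of hv0 hc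

/-- every nonzero `U`-invariant subspace contains `V^U` -/
theorem mem_of_inv (hρ : Good ρ B) {v : V} (hv : v ∈ fixS ρ U) {W : Submodule k V}
    (hW : Inv ρ U W) (h0 : W ≠ ⊥) : v ∈ W := by
  obtain ⟨x, hxW, hx0, hx⟩ := exists_fixed h.prime h.pgroup hW h0
  obtain ⟨c, rfl⟩ := h.fix_line hρ hx hx0 hv
  exact W.smul_mem c hxW

/-- `V = k[U] n₀ v` -/
theorem cyclic (hρ : Good ρ B) {v : V} (hv : v ∈ fixS ρ U) (hv0 : v ≠ 0) {n₀ : L}
    (hn₀ : h.toBN0.Long n₀) : orbS ρ {g | ∃ u ∈ U, g = u * n₀} v = ⊤ := by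
  obtain ⟨w, hw0, hw, hT⟩ := h.exists_common hρ
  obtain ⟨c, rfl⟩ := h.fix_line hρ hv hv0 (h.fixU_of_eig hw)
  rw [eq_top_iff, ← h.cyclic_aux hρ.irr hw0 hw hT hn₀]
  refine orbS_le fun g hg => ?_
  rw [map_smul]
  exact Submodule.smul_mem _ _ (mem_orbS hg)

/-- `V = k[U⁻] v`, with `U⁻ = n₀⁻¹ U n₀` -/
theorem cyclic' (hρ : Good ρ B) {v : V} (hv : v ∈ fixS ρ U) (hv0 : v ≠ 0) {n₀ : L}
    (hn₀ : h.toBN0.Long n₀) : orbS ρ {g | n₀ * g * n₀⁻¹ ∈ U} v = ⊤ := by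
  have h1 : orbS ρ {g | ∃ u ∈ U, g = u * n₀} v ≤
      (orbS ρ {g | n₀ * g * n₀⁻¹ ∈ U} v).comap (ρ n₀⁻¹) := orbS_le <| by
    rintro _ ⟨u, hu, rfl⟩
    rw [Submodule.mem_comap, ← rho_mul]
    refine mem_orbS ?_
    have e : n₀ * (n₀⁻¹ * (u * n₀)) * n₀⁻¹ = u := by group
    rwa [Set.mem_ofPred_eq, e]
  rw [h.cyclic hρ hv hv0 hn₀] at h1
  rw [eq_top_iff]
  intro x _
  have := h1 (Submodule.mem_top (x := ρ n₀ x))
  rwa [Submodule.mem_comap, rho_inv_rho] at this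

end SBP

end Vale.Agent.P183CR
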