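import Vale.Agent.P183CR.Weight

/-!
P183: unipotent radicals of parabolic subgroups, opposite parabolic subgroups, and Smith's theorem:
`V^Q = k[P] v` is irreducible for the parabolic subgroup `P` with unipotent radical `Q`.
-/

namespace Vale.Agent.P183CR

open Subgroup Vale.Agent.P240.H195

variable {k L V : Type*} [Field k] [Group L] [AddCommGroup V] [Module k V]
variable {ρ : Representation k L V} {B N U : Subgroup L} {S : Set L} {p : ℕ}

/-- the largest subgroup of `U` which is normalised by `P`; this is `O_p(P)` if `B ≤ P` -/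
def rad (U P : Subgroup L) : Subgroup L where
  carrier := {x | ∀ g ∈ P, g⁻¹ * x * g ∈ U}
  one_mem' := fun g _ => by simp
  mul_mem' := fun {a b} ha hb g hg => by
    have e : g⁻¹ * (a * b) * g = (g⁻¹ * a * g) * (g⁻¹ * b * g) := by group
    rw [e]
    exact mul_mem (ha g hg) (hb g hg)
  inv_mem' := fun {a} ha g hg => by
    have e : g⁻¹ * a⁻¹ * g = (g⁻¹ * a * g)⁻¹ := by group
    rw [e]
    exact inv_mem (ha g hg)

lemma mem_rad {P : Subgroup L} {x : L} : x ∈ rad U P ↔ ∀ g ∈ P, g⁻¹ * x * g ∈ U := Iff.rfl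

lemma rad_le (U P : Subgroup L) : rad U P ≤ U := fun x hx => by
  simpa using hx 1 P.one_mem

lemma rad_conj' {P : Subgroup L} {g x : L} (hg : g ∈ P) (hx : x ∈ rad U P) :
    g⁻¹ * x * g ∈ rad U P := fun a ha => by
  have e : a⁻¹ * (g⁻¹ * x * g) * a = (g * a)⁻¹ * x * (g * a) := by group
  rw [e]
  exact hx _ (mul_mem hg ha)

lemma rad_conj {P : Subgroup L} {g x : L} (hg : g ∈ P) (hx : x ∈ rad U P) :
    g * x * g⁻¹ ∈ rad U P := by
  have := rad_conj' (inv_mem hg) hx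
  rwa [inv_inv] at this

lemma rad_anti {P P' : Subgroup L} (hP : P ≤ P') : rad U P' ≤ rad U P :=
  fun _ hx g hg => hx g (hP hg)

/-- a subgroup of `U` normalised by `P` lies in `rad U P` -/
lemma le_rad {P K : Subgroup L} (hKU : K ≤ U) (hK : ∀ g ∈ P, ∀ x ∈ K, g⁻¹ * x * g ∈ K) :
    K ≤ rad U P := fun x hx g hg => hKU (hK g hg x hx)

/-- the parabolic subgroup whose conjugate by `n⁻¹` is opposite to `P` -/
def oppP (B : Subgroup L) (S : Set L) (P : Subgroup L) (n : L) : Subgroup L :=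
  closure ((B : Set L) ∪ {s ∈ S | n * s * n⁻¹ ∈ P})

lemma le_oppP {P : Subgroup L} {n : L} : B ≤ oppP B S P n :=
  fun _ hx => subset_closure (Or.inl hx)

lemma inv_fixS {P K : Subgroup L} (hK : ∀ g ∈ P, ∀ x ∈ K, g⁻¹ * x * g ∈ K) :
    Inv ρ P (fixS ρ K) := fun g hg y hy x hx => by
  calc ρ x (ρ g y) = ρ g (ρ (g⁻¹ * x * g) y) := by
        rw [← rho_mul, ← rho_mul]; congr 2; group
    _ = _ := by rw [hy _ (hK g hg x hx)]

lemma mem_comS {H : Subgroup L} {g : L} (hg : g ∈ H) (x : V) : ρ g x - x ∈ comS ρ H :=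
  Submodule.subset_span ⟨g, hg, x, rfl⟩

lemma comS_le {H : Subgroup L} {W : Submodule k V} (hW : ∀ g ∈ H, ∀ x, ρ g x - x ∈ W) :
    comS ρ H ≤ W := by
  rw [comS, Submodule.span_le]
  rintro _ ⟨g, hg, x, rfl⟩
  exact hW g hg x

lemma inv_comS {P K : Subgroup L} (hK : ∀ g ∈ P, ∀ x ∈ K, g * x * g⁻¹ ∈ K) :
    Inv ρ P (comS ρ K) := fun g hg => by
  have : comS ρ K ≤ (comS ρ K).comap (ρ g) := comS_le fun x hx y => by
    rw [Submodule.mem_comap, map_sub]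
    have e : ρ g (ρ x y) = ρ (g * x * g⁻¹) (ρ g y) := by
      rw [← rho_mul, ← rho_mul]; congr 2; group
    rw [e]
    exact mem_comS (hK g hg x hx) _
  exact fun y hy => this hy

namespace SBP

variable (h : SBP p B N U S)
include h

/-- a `p`-subgroup normalised by a parabolic subgroup `P` lies in `rad U P` -/
lemma le_rad_of_pgroup [Finite L] {P K : Subgroup L} (hBP : B ≤ P)
    (hK : ∀ g ∈ P, ∀ x ∈ K, g⁻¹ * x * g ∈ K) (hp : IsPGroup p K) : K ≤ rad U P := by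
  have : Fact p.Prime := ⟨h.prime⟩
  refine le_rad (fun x hx => ?_) hK
  have hUn : U ≤ normalizer (K : Set L) := by
    intro u hu
    rw [mem_normalizer_iff]
    intro y
    refine ⟨fun hy => ?_, fun hy => ?_⟩
    · have := hK u⁻¹ (inv_mem (hBP (h.le hu))) y hy
      rwa [inv_inv] at this
    · have := hK u (hBP (h.le hu)) _ hy
      have e : u⁻¹ * (u * y * u⁻¹) * u = y := by group
      rwa [e] at this
  have h1 : IsPGroup p (U ⊔ K : Subgroup L) := IsPGroup.to_sup_of_normal_right' h.pgroup hp hUn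
  by_contra hxU
  have hlt : U < U ⊔ K := lt_of_le_of_ne le_sup_left fun he => hxU (he ▸ mem_sup_right hx)
  have hnc : NormalizerCondition (U ⊔ K : Subgroup L) :=
    haveI := h1.isNilpotent
    Group.normalizerCondition_of_isNilpotent
  have h2 : U.subgroupOf (U ⊔ K) < ⊤ := by
    rw [lt_top_iff_ne_top, Ne, subgroupOf_eq_top]
    exact hlt.not_ge
  obtain ⟨y, hy, hyU⟩ := SetLike.exists_of_lt (hnc _ h2)
  have h3 : (y : L) ∈ B := by
    refine h.toSB.mem_B_of_norm h.prime fun u hu => ?_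
    have := (mem_normalizer_iff''.1 hy ⟨u, mem_sup_left hu⟩).1 hu
    exact this
  obtain ⟨m, hm⟩ := h1 y
  exact hyU (h.toSB.mem_U h.prime h3 (k := m) (by simpa using congrArg Subtype.val hm))

/-- `U ∩ w U w⁻¹ ≤ rad U P` for the longest element `w` of `P` -/
theorem mem_rad_of_long [Finite L] {H : Subgroup L} (hBH : B ≤ H) {w : L}
    (hw : (h.toBN0.sub_bn hBH).Long w) {z : L} (hz : z ∈ U) (hwz : w⁻¹ * z * w ∈ U) :
    z ∈ rad U H := by
  have hr := h.prime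
  have hw' := (h.toBN0.sub_bn hBH).long_inv hw
  have hwN : w ∈ N := hw.1.1
  let Vs : Set L := {z | ∃ b ∈ B, b⁻¹ * z * b ∈ U ∧ w⁻¹ * (b⁻¹ * z * b) * w ∈ U}
  have hVU : ∀ z ∈ Vs, z ∈ U := by
    rintro z ⟨b, hb, h1, -⟩
    have := h.normal b hb _ h1
    have e : b * (b⁻¹ * z * b) * b⁻¹ = z := by group
    rwa [e] at this
  have hconjB : ∀ c ∈ B, ∀ z ∈ Vs, c * z * c⁻¹ ∈ Vs := by
    rintro c hc z ⟨b, hb, h1, h2⟩
    have e : (c * b)⁻¹ * (c * z * c⁻¹) * (c * b) = b⁻¹ * z * b := by group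
    exact ⟨c * b, mul_mem hc hb, by rwa [e], by rwa [e]⟩
  have hconjS : ∀ t ∈ S ∩ (H : Set L), ∀ z ∈ Vs, t⁻¹ * z * t ∈ Vs := by
    rintro t ht z ⟨b, hb, h1, h2⟩
    have htN := h.sub t ht.1
    obtain ⟨u, hu, τ, hτB, hτN, rfl⟩ := h.split b hb
    obtain ⟨v, hv⟩ : ∃ v, v = u⁻¹ * z * u := ⟨_, rfl⟩
    have ez : z = u * v * u⁻¹ := by rw [hv]; group
    have e1 : (u * τ)⁻¹ * z * (u * τ) = τ⁻¹ * v * τ := by rw [hv]; group
    rw [e1] at h1 h2
    have hvU : v ∈ U := by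
      have := h.normal τ hτB _ h1
      have e : τ * (τ⁻¹ * v * τ) * τ⁻¹ = v := by group
      rwa [e] at this
    have hwvU : w⁻¹ * v * w ∈ U := by
      have := h.normal _ (h.norm' hwN hτB hτN) _ h2
      have e : w⁻¹ * τ * w * (w⁻¹ * (τ⁻¹ * v * τ) * w) * (w⁻¹ * τ * w)⁻¹ = w⁻¹ * v * w := by group
      rwa [e] at this
    have hcv := h.toSB.conv hr hBH hw ht hvU hwvU
    have hvK : v ∈ Kg U t := by
      refine mem_Kg.2 ⟨hvU, ?_⟩
      have := h.normal _ (h.sq t ht.1) _ hcv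
      have e : t * t * (t⁻¹ * v * t) * (t * t)⁻¹ = t * v * t⁻¹ := by group
      rwa [e] at this
    have hzK : z ∈ Kg U t := by
      rw [ez]
      exact h.toSB.Kg_conj ht.1 (le_Par (h.le hu)) hvK
    have hzU : t⁻¹ * z * t ∈ U := (h.toSB.Kg_conj' ht.1 self_mem_Par hzK).1
    set w₁ := t⁻¹ * w with hw₁
    have hw₁N : w₁ ∈ N := mul_mem (inv_mem htN) hwN
    have e0 : w₁⁻¹ = w⁻¹ * t := by rw [hw₁]; group
    have e00 : t * w₁ = w := by rw [hw₁]; group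
    by_cases hut : t⁻¹ * u * t ∈ B
    · obtain ⟨s', hs', hβ⟩ := (h.toBN0.sub_bn hBH).long_conj hw ht
      have h4 : s'⁻¹ * (w⁻¹ * v * w) * s' ∈ U := by
        refine h.toSB.conv hr hBH hw' hs' hwvU ?_
        have e : w⁻¹⁻¹ * (w⁻¹ * v * w) * w⁻¹ = v := by group
        rwa [e]
      have h5 := h.normal _ hβ _ h4
      have e5 : (t * w)⁻¹ * (w * s') * (s'⁻¹ * (w⁻¹ * v * w) * s') *
          ((t * w)⁻¹ * (w * s'))⁻¹ = w⁻¹ * (t⁻¹ * v * t) * w := by group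
      rw [e5] at h5
      have e : (t⁻¹ * u * t)⁻¹ * (t⁻¹ * z * t) * (t⁻¹ * u * t) = t⁻¹ * v * t := by
        rw [hv]; group
      exact ⟨t⁻¹ * u * t, hut, by rwa [e], by rwa [e]⟩
    · have h6 : t⁻¹ * u * t ∈ Par B t :=
        mul_mem (mul_mem (inv_mem self_mem_Par) (le_Par (h.le hu))) self_mem_Par
      obtain ⟨c, hc, d, hd, hcd⟩ := ((h.mem_Par ht.1).1 h6).resolve_left hut
      have h1' : RG B (w⁻¹ * t) t := (h.rg_or (inv_mem hwN) ht.1).resolve_left (hw'.2 t ht)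
      have h7 : DC B w (t * d * w₁) := by
        have := h.rg_inv ht.1 (n := w₁) (by rw [e0]; exact h1') hd
        rwa [e00] at this
      obtain ⟨b₃, hb₃, b₄, hb₄, hb⟩ := h7.left hc
      have e8 : t⁻¹ * u * w = b₃ * w * b₄ := by
        rw [← hb]
        have : t⁻¹ * u * w = (t⁻¹ * u * t) * w₁ := by rw [hw₁]; group
        rw [this, hcd]
        group
      refine ⟨b₃, hb₃, h.toSB.norm_U' hb₃ hzU, ?_⟩
      have e9 : w⁻¹ * (b₃⁻¹ * (t⁻¹ * z * t) * b₃) * w =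
          b₄ * (w⁻¹ * v * w) * b₄⁻¹ := by
        have e10 : b₃ * w = t⁻¹ * u * w * b₄⁻¹ := by rw [e8]; group
        calc w⁻¹ * (b₃⁻¹ * (t⁻¹ * z * t) * b₃) * w
            = (b₃ * w)⁻¹ * (t⁻¹ * z * t) * (b₃ * w) := by group
          _ = (t⁻¹ * u * w * b₄⁻¹)⁻¹ * (t⁻¹ * z * t) * (t⁻¹ * u * w * b₄⁻¹) := by rw [e10]
          _ = _ := by rw [hv]; group
      rw [e9]
      exact h.normal b₄ hb₄ _ hwvU
  have key : ∀ g ∈ closure ((B : Set L) ∪ (S ∩ H)), ∀ z ∈ Vs, g⁻¹ * z * g ∈ Vs := by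
    intro g hg
    induction hg using Subgroup.closure_induction'' with
    | one => intro z hz; simpa using hz
    | mem x hx =>
      rcases hx with hx | hx
      · intro z hz
        have := hconjB _ (inv_mem hx) z hz
        rwa [inv_inv] at this
      · exact hconjS x hx
    | inv_mem x hx =>
      intro z hz
      rw [inv_inv]
      rcases hx with hx | hx
      · exact hconjB _ hx z hz
      · have h1 := hconjB _ (h.sq x hx.1) _ (hconjS x hx z hz)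
        have e : x * x * (x⁻¹ * z * x) * (x * x)⁻¹ = x * z * x⁻¹ := by group
        rwa [e] at h1
    | mul x y _ _ hx hy =>
      intro z hz
      have e : (x * y)⁻¹ * z * (x * y) = y⁻¹ * (x⁻¹ * z * x) * y := by group
      rw [e]
      exact hy _ (hx z hz)
  rw [h.toBN0.closure_eq_of h.bruhat hBH] at key
  exact fun g hg => hVU _ (key g hg z ⟨1, one_mem _, by simpa using hz, by simpa using hwz⟩)

/-- `U = rad(P) (U ∩ n P' n⁻¹)` if `n` is longest and `n⁻¹ (N ∩ P) n ≤ P'` -/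
theorem factor_U [Finite L] {P P' : Subgroup L} (hBP : B ≤ P) (hBP' : B ≤ P') {n : L}
    (hn : h.toBN0.Long n) (hPP : ∀ y ∈ N, y ∈ P → n⁻¹ * y * n ∈ P') {u : L} (hu : u ∈ U) :
    ∃ q ∈ rad U P, n⁻¹ * (q⁻¹ * u) * n ∈ P' := by
  obtain ⟨w, hwN, hwP, hpr⟩ := h.exists_pr_N h.bruhat (inv_mem hn.1) hBP
  have hmN : n⁻¹ * w ∈ N := mul_mem (inv_mem hn.1) hwN
  have hw : (h.toBN0.sub_bn hBP).Long w := by
    have : (h.toBN0.sub_bn hBP).Long w⁻¹ := by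
      refine ⟨mem_inf.2 ⟨inv_mem hwN, inv_mem hwP⟩, fun s hs hr => ?_⟩
      have := h.rg_mul_of_pr hmN (inv_mem hwN) (inv_mem hwP) hs.1 hs.2 hBP hpr hr
      rw [mul_inv_cancel_right] at this
      exact (h.long_inv hn).2 s hs.1 this
    simpa using (h.toBN0.sub_bn hBP).long_inv this
  have hdc : ∀ y ∈ N, y ∈ P → ∀ b ∈ B, DC B (y * (w⁻¹ * n)) (y * b * (w⁻¹ * n)) := by
    intro y hy hyP b hb
    have := (h.dc_of_pr hmN hBP hpr y⁻¹ (inv_mem hy) (inv_mem hyP) b⁻¹ (inv_mem hb)).inv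
    have e1 : (n⁻¹ * w * y⁻¹)⁻¹ = y * (w⁻¹ * n) := by group
    have e2 : (n⁻¹ * w * b⁻¹ * y⁻¹)⁻¹ = y * b * (w⁻¹ * n) := by group
    rwa [e1, e2] at this
  obtain ⟨y, hy, a, ha, b, hb, hab⟩ := h.bruhat (w⁻¹ * u * w)
  have hyP : y ∈ P := by
    have e : y = a⁻¹ * (w⁻¹ * u * w) * b⁻¹ := by rw [hab]; group
    rw [e]
    exact mul_mem (mul_mem (inv_mem (hBP ha))
      (mul_mem (mul_mem (inv_mem hwP) (hBP (h.le hu))) hwP)) (inv_mem (hBP hb))
  obtain ⟨c, hc, d, hd, hcd⟩ := hdc y hy hyP b hb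
  obtain ⟨c', hc', d', hd', hcd'⟩ := hdc w hwN hwP (a * c) (mul_mem ha hc)
  obtain ⟨u', hu', t, htB, htN, rfl⟩ := h.split c' hc'
  have hd'' : n⁻¹ * t * n * d' ∈ B := mul_mem (h.norm' hn.1 htB htN) hd'
  have e1 : w * (a * c) * (w⁻¹ * n) = u' * n * (n⁻¹ * t * n * d') := by rw [hcd']; group
  have hu'P : w⁻¹ * u' * w ∈ P :=
    mul_mem (mul_mem (inv_mem hwP) (hBP (h.le hu'))) hwP
  have hu'B : w⁻¹ * u' * w ∈ B := by
    have h1 := (hpr.right hBP (inv_mem (mul_mem ha hc))).left hd''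
    have e2 : n⁻¹ * t * n * d' * (n⁻¹ * w * (a * c)⁻¹) = n⁻¹ * w * (w⁻¹ * u' * w)⁻¹ := by
      calc n⁻¹ * t * n * d' * (n⁻¹ * w * (a * c)⁻¹)
          = n⁻¹ * u'⁻¹ * (u' * n * (n⁻¹ * t * n * d')) * (n⁻¹ * w * (a * c)⁻¹) := by group
        _ = n⁻¹ * u'⁻¹ * (w * (a * c) * (w⁻¹ * n)) * (n⁻¹ * w * (a * c)⁻¹) := by rw [e1]
        _ = _ := by group
    rw [e2] at h1
    have := inv_mem (h.pr_unique h.bruhat hBP (inv_mem hu'P) hpr h1)
    rwa [inv_inv] at this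
  refine ⟨u', h.mem_rad_of_long hBP hw hu' (h.toSB.conj_U' h.prime hu' hu'B), ?_⟩
  have e3 : n⁻¹ * (u'⁻¹ * u) * n = (n⁻¹ * t * n * d') * (n⁻¹ * (w * y * w⁻¹) * n) * d := by
    calc n⁻¹ * (u'⁻¹ * u) * n = n⁻¹ * u'⁻¹ * w * (w⁻¹ * u * w) * (w⁻¹ * n) := by group
      _ = n⁻¹ * u'⁻¹ * w * a * (y * b * (w⁻¹ * n)) := by rw [hab]; group
      _ = n⁻¹ * u'⁻¹ * (w * (a * c) * (w⁻¹ * n)) * (n⁻¹ * (w * y * w⁻¹) * n) * d := by
          rw [hcd]; group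
      _ = _ := by rw [e1]; group
  rw [e3]
  exact mul_mem (mul_mem (hBP' hd'') (hPP _ (mul_mem (mul_mem hwN hy) (inv_mem hwN))
    (mul_mem (mul_mem hwP hyP) (inv_mem hwP)))) (hBP' hd)

lemma conj_mem_of_gen {P P' : Subgroup L} (hBP : B ≤ P) (hBP' : B ≤ P') {n : L} (hn : n ∈ N)
    (hS : ∀ s ∈ S, s ∈ P → n⁻¹ * s * n ∈ P') : ∀ y ∈ N, y ∈ P → n⁻¹ * y * n ∈ P' := by
  intro y hy hyP
  have h1 : y ∈ N ⊓ P := ⟨hy, hyP⟩
  rw [(h.toBN0.sub_bn hBP).span] at h1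
  have h2 : closure (S ∩ P) ⊔ (B ⊓ (N ⊓ P)) ≤ P'.comap (MulAut.conj n⁻¹).toMonoidHom := by
    refine sup_le ((closure_le _).2 fun s hs => ?_) fun t ht => ?_
    · simpa using hS s hs.1 hs.2
    · simpa using hBP' (h.norm' hn ht.1 ht.2.1)
  simpa using h2 h1

lemma conj_mem_oppP {P : Subgroup L} (hBP : B ≤ P) {n : L} (hn : h.toBN0.Long n) :
    ∀ y ∈ N, y ∈ P → n⁻¹ * y * n ∈ oppP B S P n := by
  refine h.conj_mem_of_gen hBP le_oppP hn.1 fun t ht htP => ?_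
  obtain ⟨s, hs, hβ⟩ := h.long_conj hn ht
  have hβN : (t * n)⁻¹ * (n * s) ∈ N :=
    mul_mem (inv_mem (mul_mem (h.sub t ht) hn.1)) (mul_mem hn.1 (h.sub s hs))
  have h1 : s ∈ oppP B S P n := by
    refine subset_closure (Or.inr ⟨hs, ?_⟩)
    have e : n * s * n⁻¹ = t * (n * ((t * n)⁻¹ * (n * s)) * n⁻¹) := by group
    rw [e]
    exact mul_mem htP (hBP (h.norm n hn.1 _ hβ hβN))
  have e : n⁻¹ * t * n = s * ((t * n)⁻¹ * (n * s))⁻¹ := by group
  rw [e]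
  exact mul_mem h1 (inv_mem (le_oppP hβ))

lemma conj_mem_of_oppP {P : Subgroup L} (hBP : B ≤ P) {n : L} (hn : n ∈ N) :
    ∀ y ∈ N, y ∈ oppP B S P n → n * y * n⁻¹ ∈ P := by
  have := h.conj_mem_of_gen le_oppP hBP (P := oppP B S P n) (inv_mem hn) fun s hs hsP => ?_
  · simpa using this
  have h1 := h.mem_closure_gen (J := {s ∈ S | n * s * n⁻¹ ∈ P}) (fun s hs => hs.1) ?_ hs hsP
  · simpa using h1.2
  · rintro a ⟨ha, haP⟩ t ht hat
    refine ⟨ht, ?_⟩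
    have e : n * t * n⁻¹ = (n * a * n⁻¹) * (n * (a⁻¹ * t) * n⁻¹) := by group
    rw [e]
    exact mul_mem haP (hBP (h.norm n hn _ hat (mul_mem (inv_mem (h.sub a ha)) (h.sub t ht))))

variable [CharP k p] [FiniteDimensional k V] [Finite L]

/-- `V = [V, Q] + n k[P'] v` for `Q = rad U P` -/
theorem comS_sup (hρ : Good ρ B) {v : V} (hv : v ∈ fixS ρ U) (hv0 : v ≠ 0) {P P' : Subgroup L}
    (hBP : B ≤ P) (hBP' : B ≤ P') {n : L} (hn : h.toBN0.Long n)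
    (hPP : ∀ y ∈ N, y ∈ P → n⁻¹ * y * n ∈ P') :
    comS ρ (rad U P) ⊔ (orbS ρ P' v).map (ρ n) = ⊤ := by
  rw [eq_top_iff, ← h.cyclic hρ hv hv0 hn]
  refine orbS_le ?_
  rintro _ ⟨u, hu, rfl⟩
  obtain ⟨q, hq, hy⟩ := h.factor_U hBP hBP' hn hPP hu
  have e : ρ (u * n) v = ρ q (ρ n (ρ (n⁻¹ * (q⁻¹ * u) * n) v)) := by
    rw [← rho_mul, ← rho_mul]; congr 2; group
  rw [e, ← sub_add_cancel (ρ q _) (ρ n (ρ (n⁻¹ * (q⁻¹ * u) * n) v))]
  exact Submodule.add_mem_sup (mem_comS hq _) (Submodule.mem_map_of_mem (mem_orbS hy))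

/-- `n V^{Q'} ∩ [V, Q] = 0` -/
theorem fix_inf_comS (hρ : Good ρ B) {P P' : Subgroup L} (hBP : B ≤ P) (hBP' : B ≤ P') {n : L}
    (hn : h.toBN0.Long n) (hPP : ∀ y ∈ N, y ∈ P' → n * y * n⁻¹ ∈ P) :
    fixS ρ (rad U P') ⊓ (comS ρ (rad U P)).comap (ρ n) = ⊥ := by
  by_contra hne
  obtain ⟨v, hv, hv0⟩ := h.exists_fix hρ.irr
  obtain ⟨f, hf, hf0⟩ := h.exists_fix hρ.irr.dual
  have h1 : v ∈ fixS ρ (rad U P') ⊓ (comS ρ (rad U P)).comap (ρ n) := by
    refine h.mem_of_inv hρ hv (fun u hu x hx => ⟨?_, ?_⟩) hne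
    · exact inv_fixS (fun g hg x hx => rad_conj' hg hx) u (hBP' (h.le hu)) x hx.1
    · obtain ⟨q, hq, hy⟩ := h.factor_U hBP' hBP (h.long_inv hn) (by simpa using hPP)
        (inv_mem hu)
      have hy' := inv_mem hy
      have e : ρ n (ρ u x) = ρ (n⁻¹⁻¹ * (q⁻¹ * u⁻¹) * n⁻¹)⁻¹ (ρ n x) := by
        conv_lhs => rw [← hx.1 q hq]
        simp only [← rho_mul]
        congr 2
        group
      change ρ n (ρ u x) ∈ comS ρ (rad U P)
      rw [e]
      exact inv_comS (fun g hg x hx => rad_conj hg hx) _ hy' _ hx.2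
  have h2 : comS ρ (rad U P) ≤ LinearMap.ker f := comS_le fun g hg x => by
    rw [LinearMap.mem_ker, map_sub, fixS_dual_app hf (rad_le _ _ hg), sub_self]
  exact h.coeff_long_ne hρ hv hv0 hf hf0 hn (h2 h1.2)

/-- **Smith**: `V^Q = k[P] v` for `Q = rad U P` -/
theorem smith (hρ : Good ρ B) {v : V} (hv : v ∈ fixS ρ U) (hv0 : v ≠ 0) {P : Subgroup L}
    (hBP : B ≤ P) : fixS ρ (rad U P) = orbS ρ P v := by
  have hle : orbS ρ P v ≤ fixS ρ (rad U P) :=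
    orbS_le_fixS (fun g hg x hx => rad_conj' hg hx) fun g hg => hv g (rad_le _ _ hg)
  refine le_antisymm (fun x hx => ?_) hle
  obtain ⟨n, hn⟩ := h.toBN0.exists_long
  have h1 := h.comS_sup hρ hv hv0 (P := oppP B S P n⁻¹) le_oppP hBP hn
    (by simpa using h.conj_mem_of_oppP hBP (inv_mem hn.1))
  have h2 := h.fix_inf_comS hρ (P := oppP B S P n⁻¹) le_oppP hBP hn
    (by simpa using h.conj_mem_oppP hBP (h.long_inv hn))
  have h3 : ρ n x ∈ comS ρ (rad U (oppP B S P n⁻¹)) ⊔ (orbS ρ P v).map (ρ n) := by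
    rw [h1]; trivial
  obtain ⟨y, hy, _, ⟨m, hm, rfl⟩, e⟩ := Submodule.mem_sup.1 h3
  have h4 : x - m ∈ fixS ρ (rad U P) ⊓ (comS ρ (rad U (oppP B S P n⁻¹))).comap (ρ n) := by
    refine ⟨sub_mem hx (hle hm), ?_⟩
    change ρ n (x - m) ∈ comS ρ (rad U (oppP B S P n⁻¹))
    rwa [map_sub, ← e, add_sub_cancel_right]
  rw [h2, Submodule.mem_bot, sub_eq_zero] at h4
  rwa [h4]

/-- **Smith**: `V^Q` is irreducible for `P` -/
theorem smith_irr (hρ : Good ρ B) {P : Subgroup L} (hBP : B ≤ P) {W : Submodule k V}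
    (hW : Inv ρ P W) (hle : W ≤ fixS ρ (rad U P)) (h0 : W ≠ ⊥) : W = fixS ρ (rad U P) := by
  obtain ⟨v, hv, hv0⟩ := h.exists_fix hρ.irr
  refine le_antisymm hle ?_
  rw [h.smith hρ hv hv0 hBP]
  exact orbS_le fun g hg => hW g hg v
    (h.mem_of_inv hρ hv (fun u hu => hW u (hBP (h.le hu))) h0)

/-- `V = [V, Q] ⊕ n V^{Q'}` for the opposite parabolic subgroups `P` and `n P' n⁻¹` -/
theorem isCompl_comS (hρ : Good ρ B) {P : Subgroup L} (hBP : B ≤ P) {n : L}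
    (hn : h.toBN0.Long n) :
    IsCompl (comS ρ (rad U P)) ((fixS ρ (rad U (oppP B S P n))).map (ρ n)) := by
  obtain ⟨v, hv, hv0⟩ := h.exists_fix hρ.irr
  constructor
  · rw [Submodule.disjoint_def]
    rintro _ hx ⟨y, hy, rfl⟩
    have h1 : y ∈ fixS ρ (rad U (oppP B S P n)) ⊓ (comS ρ (rad U P)).comap (ρ n) := ⟨hy, hx⟩
    rw [h.fix_inf_comS hρ hBP le_oppP hn (h.conj_mem_of_oppP hBP hn.1), Submodule.mem_bot] at h1
    rw [h1, map_zero]
  · rw [codisjoint_iff, h.smith hρ hv hv0 le_oppP]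
    exact h.comS_sup hρ hv hv0 hBP le_oppP hn (h.conj_mem_oppP hBP hn)

end SBP

end Vale.Agent.P183CR
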