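import Vale.Agent.P183CR.Hecke

/-!
P183: the matrix coefficient `g ↦ f (g v)` for `v ∈ V^U`, `f ∈ (V*)^U`; an irreducible module is
determined by the stabiliser of the line `V^U` and the character of `B` on it.
-/

namespace Vale.Agent.P183CR

open Subgroup Vale.Agent.P240.H195

variable {k L V : Type*} [Field k] [Group L] [AddCommGroup V] [Module k V]
variable {ρ : Representation k L V} {B N U : Subgroup L} {S : Set L} {p : ℕ}

lemma fixS_dual_app {H : Subgroup L} {f : Module.Dual k V} (hf : f ∈ fixS ρ.dual H) {g : L}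
    (hg : g ∈ H) (x : V) : f (ρ g x) = f x := by
  have := congrArg (fun φ : Module.Dual k V => φ x) (hf _ (inv_mem hg))
  simpa only [dual_app, inv_inv] using this

/-- a normal subgroup of `P` which fixes `v` fixes `k[P] v` -/
lemma orbS_le_fixS {P K : Subgroup L} (hK : ∀ g ∈ P, ∀ x ∈ K, g⁻¹ * x * g ∈ K) {v : V}
    (hv : v ∈ fixS ρ K) : orbS ρ P v ≤ fixS ρ K := orbS_le fun g hg x hx => by
  calc ρ x (ρ g v) = ρ g (ρ (g⁻¹ * x * g) v) := by
        rw [← rho_mul, ← rho_mul]; congr 2; group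
    _ = _ := by rw [hv _ (hK g hg x hx)]

/-- irreducible modules with the same nonzero matrix coefficient are isomorphic -/
theorem exists_equiv_of_coeff {V' : Type*} [AddCommGroup V'] [Module k V']
    {ρ' : Representation k L V'} (hρ : Irr ρ) (hρ' : Irr ρ') {v : V} {v' : V'} (hv : v ≠ 0)
    (hv' : v' ≠ 0) {f : Module.Dual k V} {f' : Module.Dual k V'} (hf : f ≠ 0) (hf' : f' ≠ 0)
    (hc : ∀ g, f (ρ g v) = f' (ρ' g v')) :
    ∃ e : V ≃ₗ[k] V', e v = v' ∧ ∀ g x, e (ρ g x) = ρ' g (e x) := by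
  let Γ : Submodule k (V × V') := Submodule.span k (Set.range fun g => (ρ g v, ρ' g v'))
  have hΓ : ∀ z ∈ Γ, ∀ g, f (ρ g z.1) = f' (ρ' g z.2) := by
    intro z hz g
    induction hz using Submodule.span_induction with
    | mem z hz =>
      obtain ⟨a, rfl⟩ := hz
      simp only [← rho_mul]
      exact hc _
    | zero => simp
    | add x y _ _ hx hy => simp [hx, hy]
    | smul c x _ hx => simp [hx]
  have hinv : ∀ z ∈ Γ, ∀ g, (ρ g z.1, ρ' g z.2) ∈ Γ := by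
    intro z hz g
    induction hz using Submodule.span_induction with
    | mem z hz =>
      obtain ⟨a, rfl⟩ := hz
      simp only [← rho_mul]
      exact Submodule.subset_span ⟨_, rfl⟩
    | zero =>
      rw [Prod.fst_zero, Prod.snd_zero, map_zero, map_zero]
      exact Γ.zero_mem
    | add x y _ _ hx hy => simpa using Γ.add_mem hx hy
    | smul c x _ hx => simpa using Γ.smul_mem c hx
  have h1 : Function.Bijective (Prod.fst ∘ Γ.subtype) := by
    constructor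
    · refine (injective_iff_map_eq_zero (LinearMap.fst k V V' ∘ₗ Γ.subtype)).2 fun z hz => ?_
      have hz1 : z.1.1 = 0 := hz
      have hz2 : z.1.2 = 0 := by
        by_contra h0
        refine hf' (hρ'.eq_zero_of_orbit h0 fun g => ?_)
        rw [← hΓ _ z.2, hz1, map_zero, map_zero]
      exact Subtype.ext (Prod.ext hz1 hz2)
    · intro x
      have h2 : orbS ρ Set.univ v ≤ Γ.map (LinearMap.fst k V V') := orbS_le fun g _ =>
        ⟨_, Submodule.subset_span ⟨g, rfl⟩, rfl⟩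
      rw [hρ.orbS_top hv] at h2
      obtain ⟨z, hz, rfl⟩ := h2 (Submodule.mem_top (x := x))
      exact ⟨⟨z, hz⟩, rfl⟩
  have h2 : Function.Bijective (Prod.snd ∘ Γ.subtype) := by
    constructor
    · refine (injective_iff_map_eq_zero (LinearMap.snd k V V' ∘ₗ Γ.subtype)).2 fun z hz => ?_
      have hz2 : z.1.2 = 0 := hz
      have hz1 : z.1.1 = 0 := by
        by_contra h0
        refine hf (hρ.eq_zero_of_orbit h0 fun g => ?_)
        rw [hΓ _ z.2, hz2, map_zero, map_zero]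
      exact Subtype.ext (Prod.ext hz1 hz2)
    · intro x
      have h2 : orbS ρ' Set.univ v' ≤ Γ.map (LinearMap.snd k V V') := orbS_le fun g _ =>
        ⟨_, Submodule.subset_span ⟨g, rfl⟩, rfl⟩
      rw [hρ'.orbS_top hv'] at h2
      obtain ⟨z, hz, rfl⟩ := h2 (Submodule.mem_top (x := x))
      exact ⟨⟨z, hz⟩, rfl⟩
  obtain ⟨e, he⟩ := Submodule.exists_equiv_eq_graph h1 h2
  have h3 : ∀ z : V × V', z ∈ Γ ↔ z.2 = e z.1 := fun z => by
    rw [he, LinearMap.mem_graph_iff]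
    rfl
  refine ⟨e, ?_, fun g x => ?_⟩
  · have := (h3 _).1 (Submodule.subset_span ⟨1, rfl⟩)
    simpa using this.symm
  · exact ((h3 _).1 (hinv (x, e x) ((h3 _).2 rfl) g)).symm

namespace SBP

variable (h : SBP p B N U S)
include h

/-- an element `n` with `U ∩ U^n = 1` is a longest element -/
lemma long_of_opp [Finite L] {n : L} (hn : n ∈ N) (ho : ∀ x ∈ U, n * x * n⁻¹ ∈ U → x = 1) :
    h.toBN0.Long n := by
  refine ⟨hn, fun s hs hr => ?_⟩
  obtain ⟨x, hx, hnx, hxs⟩ := h.toSB.transit' h.prime hn hs hr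
  apply hxs
  rw [ho x hx hnx]
  simp

/-- `U ∩ U^n = 1` for each longest element `n` -/
lemma opp_of_long [Finite L] {n : L} (hn : h.toBN0.Long n) {x : L} (hx : x ∈ U)
    (hnx : n * x * n⁻¹ ∈ U) : x = 1 := by
  obtain ⟨m, hm, ho⟩ := h.opp
  have h1 := h.long_unique hn (h.long_of_opp hm ho)
  have h2 := h.norm n hn.1 _ h1 (mul_mem (inv_mem hn.1) hm)
  refine ho x hx ?_
  have e : m * x * m⁻¹ = (n * (n⁻¹ * m) * n⁻¹) * (n * x * n⁻¹) * (n * (n⁻¹ * m) * n⁻¹)⁻¹ := by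
    group
  rw [e]
  exact h.normal _ h2 _ hnx

lemma split_Kg [Finite L] {n s u : L} (hn : n ∈ N) (hs : s ∈ S) (hr : RG B n s) (hu : u ∈ U) :
    ∃ x ∈ U, n * x * n⁻¹ ∈ U ∧ x⁻¹ * u ∈ Kg U s := by
  obtain ⟨x, hx, hnx, hxu⟩ := h.toSB.transit h.prime hn hs (h.le hu) hr
  have e : (x * s)⁻¹ * (u * s) = s⁻¹ * (x⁻¹ * u) * s := by group
  rw [e] at hxu
  have h0 := mul_mem (inv_mem hx) hu
  have h1 := h.normal _ (h.sq s hs) _ (h.toSB.conj_U' h.prime h0 hxu)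
  refine ⟨x, hx, hnx, mem_Kg.2 ⟨h0, ?_⟩⟩
  have e' : s * s * (s⁻¹ * (x⁻¹ * u) * s) * (s * s)⁻¹ = s * (x⁻¹ * u) * s⁻¹ := by group
  rwa [e'] at h1

variable [CharP k p] [FiniteDimensional k V] [Finite L]

lemma mem_lineStab_of_rg (hρ : Good ρ B) {v : V} (hv : v ∈ fixS ρ U) (hv0 : v ≠ 0)
    {f : Module.Dual k V} (hf : f ∈ fixS ρ.dual U) {n s : L} (hn : n ∈ N) (hs : s ∈ S)
    (hr : RG B n s) (h0 : f (ρ n v) ≠ 0) : s ∈ lineStab ρ v := by
  let M := orbS ρ (Par B s) v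
  have hM : M ≤ fixS ρ (Kg U s) :=
    orbS_le_fixS (fun g hg x hx => h.toSB.Kg_conj' hs hg hx) fun g hg => hv g hg.1
  have hMi : Inv ρ (Par B s) M := inv_orbS _ _
  have hb : M ⊓ LinearMap.ker (f ∘ₗ ρ n) = ⊥ := by
    by_contra hne
    refine h0 (h.mem_of_inv hρ hv (W := M ⊓ LinearMap.ker (f ∘ₗ ρ n))
      (fun u hu x hx => ⟨hMi u (le_Par (h.le hu)) x hx.1, ?_⟩) hne).2
    obtain ⟨y, hy, hny, hyu⟩ := h.split_Kg hn hs hr hu
    have h1 : f (ρ n x) = 0 := hx.2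
    change f (ρ n (ρ u x)) = 0
    rw [← h1, ← fixS_dual_app hf hny (ρ n x)]
    conv_rhs => rw [← hM hx.1 _ hyu]
    simp only [← rho_mul]
    congr 3
    group
  refine mem_lineStab_of hv0 (c := f (ρ n (ρ s v)) / f (ρ n v)) (sub_eq_zero.1 ?_)
  rw [← Submodule.mem_bot k, ← hb]
  refine ⟨sub_mem (mem_orbS self_mem_Par) (Submodule.smul_mem _ _ (self_mem_orbS _ _)), ?_⟩
  change f (ρ n _) = 0
  rw [map_sub, map_sub, map_smul, map_smul, smul_eq_mul, div_mul_cancel₀ _ h0, sub_self]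

/-- `f (n₀ v) ≠ 0` -/
theorem coeff_long_ne (hρ : Good ρ B) {v : V} (hv : v ∈ fixS ρ U) (hv0 : v ≠ 0)
    {f : Module.Dual k V} (hf : f ∈ fixS ρ.dual U) (hf0 : f ≠ 0) {n₀ : L}
    (hn₀ : h.toBN0.Long n₀) : f (ρ n₀ v) ≠ 0 := by
  intro h0
  have h1 : orbS ρ {g | ∃ u ∈ U, g = u * n₀} v ≤ LinearMap.ker f := orbS_le <| by
    rintro _ ⟨u, hu, rfl⟩
    rw [LinearMap.mem_ker, rho_mul, fixS_dual_app hf hu, h0]
  rw [h.cyclic hρ hv hv0 hn₀, top_le_iff, LinearMap.ker_eq_top] at h1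
  exact hf0 h1

/-- the support of the matrix coefficient `n ↦ f (n v)` on `N` -/
theorem coeff_ne_iff (hρ : Good ρ B) {v : V} (hv : v ∈ fixS ρ U) (hv0 : v ≠ 0)
    {f : Module.Dual k V} (hf : f ∈ fixS ρ.dual U) (hf0 : f ≠ 0) {n₀ : L}
    (hn₀ : h.toBN0.Long n₀) {n : L} (hn : n ∈ N) :
    f (ρ n v) ≠ 0 ↔ n₀⁻¹ * n ∈ lineStab ρ v := by
  constructor
  · refine h.long_induction hn₀ (P := fun n => f (ρ n v) ≠ 0 → n₀⁻¹ * n ∈ lineStab ρ v)
      (fun n hn _ => h.le_lineStab hρ hv hv0 (h.long_unique hn₀ hn))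
      (fun n hn s hs hr ih h0 => ?_) n hn
    have h1 := h.mem_lineStab_of_rg hρ hv hv0 hf hn hs hr h0
    obtain ⟨c, hc⟩ := h1
    have h2 := ih (by
      rw [rho_mul, hc, map_smul, map_smul, smul_eq_mul]
      exact mul_ne_zero c.ne_zero h0)
    have h3 := mul_mem h2 (inv_mem (show s ∈ lineStab ρ v from ⟨c, hc⟩))
    rwa [← mul_assoc, mul_inv_cancel_right] at h3
  · rintro ⟨c, hc⟩
    have e : n = n₀ * (n₀⁻¹ * n) := by group
    rw [e, rho_mul, hc, map_smul, map_smul, smul_eq_mul]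
    exact mul_ne_zero c.ne_zero (h.coeff_long_ne hρ hv hv0 hf hf0 hn₀)

/-- the support of the matrix coefficient `g ↦ f (g v)` is `U n₀ P`, `P` the stabiliser of `V^U` -/
theorem coeff_ne_iff' (hρ : Good ρ B) {v : V} (hv : v ∈ fixS ρ U) (hv0 : v ≠ 0)
    {f : Module.Dual k V} (hf : f ∈ fixS ρ.dual U) (hf0 : f ≠ 0) {n₀ : L}
    (hn₀ : h.toBN0.Long n₀) (g : L) :
    f (ρ g v) ≠ 0 ↔ ∃ u ∈ U, ∃ y ∈ lineStab ρ v, g = u * n₀ * y := by
  constructor
  · intro h0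
    obtain ⟨n, hn, a, ha, b, hb, rfl⟩ := h.bruhat g
    obtain ⟨u, hu, t, htB, htN, rfl⟩ := h.split a ha
    have hb' : n⁻¹ * t * n * b ∈ lineStab ρ v :=
      h.le_lineStab hρ hv hv0 (mul_mem (h.norm' hn htB htN) hb)
    have h1 : f (ρ n v) ≠ 0 := by
      intro h1
      apply h0
      obtain ⟨c, hc⟩ := hb'
      have e : u * t * n * b = u * n * (n⁻¹ * t * n * b) := by group
      rw [e, rho_mul, hc, map_smul, map_smul, rho_mul, fixS_dual_app hf hu, h1, smul_zero]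
    refine ⟨u, hu, _, mul_mem ((h.coeff_ne_iff hρ hv hv0 hf hf0 hn₀ hn).1 h1) hb', ?_⟩
    group
  · rintro ⟨u, hu, y, ⟨c, hc⟩, rfl⟩
    rw [rho_mul, hc, map_smul, map_smul, rho_mul, fixS_dual_app hf hu, smul_eq_mul]
    exact mul_ne_zero c.ne_zero (h.coeff_long_ne hρ hv hv0 hf hf0 hn₀)

omit [CharP k p] [FiniteDimensional k V] [Finite L] in
/-- a character of a subgroup containing `B` is determined by its restriction to `B` -/
lemma char_ext {V' : Type*} [AddCommGroup V'] [Module k V'] {ρ' : Representation k L V'}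
    {v : V} {v' : V'} (hv0 : v ≠ 0) {P : Subgroup L} (hBP : B ≤ P) (hP : P ≤ lineStab ρ v)
    (hP' : P ≤ lineStab ρ' v') (hχ : ∀ b ∈ B, ∀ c : k, ρ b v = c • v → ρ' b v' = c • v') :
    ∀ g ∈ P, ∀ c : k, ρ g v = c • v → ρ' g v' = c • v' := by
  have hinj : ∀ {c d : k}, c • v = d • v → c = d := fun hcd =>
    smul_left_injective k hv0 hcd
  let Q : Subgroup L :=
    { carrier := {g | ∃ c : kˣ, ρ g v = (c : k) • v ∧ ρ' g v' = (c : k) • v'}
      one_mem' := ⟨1, by simp, by simp⟩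
      mul_mem' := by
        rintro a b ⟨c, hc, hc'⟩ ⟨d, hd, hd'⟩
        refine ⟨c * d, ?_, ?_⟩
        · rw [rho_mul, hd, map_smul, hc, smul_smul, Units.val_mul, mul_comm]
        · rw [rho_mul, hd', map_smul, hc', smul_smul, Units.val_mul, mul_comm]
      inv_mem' := by
        rintro a ⟨c, hc, hc'⟩
        refine ⟨c⁻¹, ?_, ?_⟩
        · conv_rhs => rw [← rho_inv_rho ρ a v, hc, map_smul, smul_smul, Units.inv_mul, one_smul]
        · conv_rhs => rw [← rho_inv_rho ρ' a v', hc', map_smul, smul_smul, Units.inv_mul, one_smul] }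
  have hBQ : B ≤ Q := fun b hb => by
    obtain ⟨c, hc⟩ := hP (hBP hb)
    exact ⟨c, hc, hχ b hb c hc⟩
  have hPQ : P ≤ Q := by
    rw [← h.toBN0.closure_eq_of h.bruhat hBP, closure_le]
    rintro s (hs | ⟨hs, hsP⟩)
    · exact hBQ hs
    obtain ⟨b, hb, hbs⟩ := h.thick s hs
    have h2 : s⁻¹ * b * s ∈ Par B s :=
      mul_mem (mul_mem (inv_mem self_mem_Par) (le_Par hb)) self_mem_Par
    obtain ⟨a₁, ha₁, a₂, ha₂, hab⟩ := ((h.mem_Par hs).1 h2).resolve_left hbs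
    obtain ⟨c, hc⟩ := hP hsP
    obtain ⟨c', hc'⟩ := hP' hsP
    obtain ⟨β, hβ, hβ'⟩ := hBQ hb
    obtain ⟨α₁, hα₁, hα₁'⟩ := hBQ ha₁
    obtain ⟨α₂, hα₂, hα₂'⟩ := hBQ ha₂
    have e : b * s = s * a₁ * s * a₂ := by
      calc b * s = s * (s⁻¹ * b * s) := by group
        _ = _ := by rw [hab]; group
    have e1 := congrArg (fun g => ρ g v) e
    have e2 := congrArg (fun g => ρ' g v') e
    simp only [rho_mul, hc, hβ, hα₁, hα₂, map_smul, smul_smul] at e1
    simp only [rho_mul, hc', hβ', hα₁', hα₂', map_smul, smul_smul] at e2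
    have e3 := hinj e1
    refine ⟨c, hc, ?_⟩
    have e4 : (β : k) = α₂ * c * α₁ := by
      apply mul_left_cancel₀ c.ne_zero
      rw [e3]
      ring
    have e5 : ((c' : k) * α₂ * α₁) • ((c : k) • v') = ((c' : k) * α₂ * α₁) • ((c' : k) • v') := by
      rw [smul_smul, smul_smul]
      rw [e4] at e2
      convert e2 using 2 <;> ring
    rw [hc']
    exact (smul_right_injective V' (mul_ne_zero (mul_ne_zero c'.ne_zero α₂.ne_zero)
      α₁.ne_zero) e5).symm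
  intro g hg c hc
  obtain ⟨d, hd, hd'⟩ := hPQ hg
  rw [hinj (hc.symm.trans hd), hd']

/-- **Curtis–Richen**: an irreducible module is determined by the stabiliser of the line `V^U` and
the character of `B` on this line -/
theorem exists_equiv {V' : Type*} [AddCommGroup V'] [Module k V'] [FiniteDimensional k V']
    {ρ' : Representation k L V'} (hρ : Good ρ B) (hρ' : Good ρ' B) {v : V} {v' : V'}
    (hv : v ∈ fixS ρ U) (hv0 : v ≠ 0) (hv' : v' ∈ fixS ρ' U) (hv0' : v' ≠ 0)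
    (hP : lineStab ρ v = lineStab ρ' v')
    (hχ : ∀ b ∈ B, ∀ c : k, ρ b v = c • v → ρ' b v' = c • v') :
    ∃ e : V ≃ₗ[k] V', e v = v' ∧ ∀ g x, e (ρ g x) = ρ' g (e x) := by
  obtain ⟨n₀, hn₀⟩ := h.toBN0.exists_long
  obtain ⟨f, hf, hf0⟩ := h.exists_fix hρ.irr.dual
  obtain ⟨f₁, hf₁, hf₁0⟩ := h.exists_fix hρ'.irr.dual
  have h1 := h.coeff_long_ne hρ hv hv0 hf hf0 hn₀
  have h2 := h.coeff_long_ne hρ' hv' hv0' hf₁ hf₁0 hn₀
  have hc0 : f (ρ n₀ v) / f₁ (ρ' n₀ v') ≠ 0 := div_ne_zero h1 h2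
  have hf' := (fixS ρ'.dual U).smul_mem (f (ρ n₀ v) / f₁ (ρ' n₀ v')) hf₁
  have hf'0 := smul_ne_zero hc0 hf₁0
  set f' := (f (ρ n₀ v) / f₁ (ρ' n₀ v')) • f₁ with hf'e
  have h3 : f' (ρ' n₀ v') = f (ρ n₀ v) := by
    rw [hf'e, LinearMap.smul_apply, smul_eq_mul, div_mul_cancel₀ _ h2]
  have hch := h.char_ext hv0 (h.le_lineStab hρ hv hv0) le_rfl hP.le hχ
  refine exists_equiv_of_coeff hρ.irr hρ'.irr hv0 hv0' hf0 hf'0 fun g => ?_
  by_cases hg : ∃ u ∈ U, ∃ y ∈ lineStab ρ v, g = u * n₀ * y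
  · obtain ⟨u, hu, y, hy, rfl⟩ := hg
    obtain ⟨c, hc⟩ := id hy
    rw [rho_mul, hc, rho_mul ρ', hch y hy c hc, map_smul, map_smul, map_smul, map_smul, rho_mul,
      rho_mul, fixS_dual_app hf hu, fixS_dual_app hf' hu, h3]
  · have h4 := mt (h.coeff_ne_iff' hρ hv hv0 hf hf0 hn₀ g).1 hg
    rw [hP] at hg
    have h5 := mt (h.coeff_ne_iff' hρ' hv' hv0' hf' hf'0 hn₀ g).1 hg
    rw [not_not] at h4 h5
    rw [h4, h5]

end SBP

end Vale.Agent.P183CR
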